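import Mathlib

/-!
Radial Gaussian reference densities on the half line, with the properties the transport bound asks
for.
-/

namespace Vale.Agent.P237.Loss

open MeasureTheory Set Filter
open scoped Topology

/-- The normalising constant of the density `x ^ j * exp (-x²/(2b))`. -/
noncomputable def chiConst (j : ℕ) (b : ℝ) : ℝ :=
  ∫ x in Ioi (0 : ℝ), x ^ j * Real.exp (-x ^ 2 / (2 * b))

/-- The density of the chi law with `j + 1` degrees of freedom and squared scale `b`. -/
noncomputable def chi (j : ℕ) (b x : ℝ) : ℝ :=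
  x ^ j * Real.exp (-x ^ 2 / (2 * b)) / chiConst j b

variable {j : ℕ} {b : ℝ}

theorem integrableOn_pow_mul_exp (j : ℕ) (hb : 0 < b) :
    IntegrableOn (fun x : ℝ => x ^ j * Real.exp (-x ^ 2 / (2 * b))) (Ioi 0) := by
  have h := integrableOn_rpow_mul_exp_neg_mul_sq (s := (j : ℝ)) (b := 1 / (2 * b)) (by positivity)
    (by linarith [Nat.cast_nonneg (α := ℝ) j])
  refine h.congr_fun (fun x _ => ?_) measurableSet_Ioi
  simp only [Real.rpow_natCast]
  ring_nf

theorem chiConst_pos (j : ℕ) (hb : 0 < b) : 0 < chiConst j b := by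
  refine setIntegral_pos_iff_support_of_nonneg_ae ?_ (integrableOn_pow_mul_exp j hb) |>.2 ?_
  · filter_upwards [ae_restrict_mem measurableSet_Ioi] with x (hx : 0 < x)
    exact mul_nonneg (pow_nonneg hx.le j) (Real.exp_nonneg _)
  · refine lt_of_lt_of_le (show (0 : ENNReal) < volume (Ioo (1 : ℝ) 2) by simp) (measure_mono ?_)
    intro x hx
    have : (0 : ℝ) < x := by linarith [hx.1]
    exact ⟨(mul_pos (pow_pos this j) (Real.exp_pos _)).ne', this⟩

theorem chi_pos (j : ℕ) (hb : 0 < b) {x : ℝ} (hx : 0 < x) : 0 < chi j b x :=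
  div_pos (mul_pos (pow_pos hx j) (Real.exp_pos _)) (chiConst_pos j hb)

theorem continuous_chi (j : ℕ) (b : ℝ) : Continuous (chi j b) := by unfold chi; fun_prop

theorem integrableOn_chi (j : ℕ) (hb : 0 < b) : IntegrableOn (chi j b) (Ioi 0) :=
  (integrableOn_pow_mul_exp j hb).div_const _

theorem integral_chi (j : ℕ) (hb : 0 < b) : ∫ x in Ioi (0 : ℝ), chi j b x = 1 := by
  simp only [chi]
  rw [integral_div]
  exact div_self (chiConst_pos j hb).ne'

theorem integrableOn_sq_mul_chi (j : ℕ) (hb : 0 < b) :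
    IntegrableOn (fun x => x ^ 2 * chi j b x) (Ioi 0) := by
  refine IntegrableOn.congr_fun (f := fun x => x ^ (j + 2) * Real.exp (-x ^ 2 / (2 * b)) /
    chiConst j b) ((integrableOn_pow_mul_exp (j + 2) hb).div_const _) (fun x _ => ?_)
    measurableSet_Ioi
  simp only [chi, pow_add]
  ring

theorem chi_eventually_le (j : ℕ) (hb : 0 < b) :
    ∀ᶠ a in atTop, ∀ x ∈ Icc a (a + 1), chi j b (a + 1) ≤ chi j b x := by
  filter_upwards [eventually_ge_atTop (max 1 (b * j))] with a ha x hx
  have ha1 : 1 ≤ a := (le_max_left _ _).trans ha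
  have hx0 : 0 < x := by linarith [hx.1]
  refine div_le_div_of_nonneg_right ?_ (chiConst_pos j hb).le
  rw [← Real.exp_log (pow_pos hx0 j), ← Real.exp_log (pow_pos (show 0 < a + 1 by linarith) j),
    ← Real.exp_add, ← Real.exp_add, Real.exp_le_exp, Real.log_pow, Real.log_pow]
  have hlog : Real.log (a + 1) - Real.log x ≤ (a + 1 - x) / x := by
    rw [← Real.log_div (by linarith) hx0.ne', sub_div, div_self hx0.ne']
    exact Real.log_le_sub_one_of_pos (div_pos (by linarith) hx0)
  have hj : (j : ℝ) * ((a + 1 - x) / x) ≤ ((a + 1) ^ 2 - x ^ 2) / (2 * b) := by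
    rw [mul_div_assoc', div_le_div_iff₀ hx0 (by positivity)]
    have h1 : b * j ≤ x := ((le_max_right _ _).trans ha).trans hx.1
    have h2 : 0 ≤ a + 1 - x := by linarith [hx.2]
    have h1' : b * j ≤ x ^ 2 := h1.trans (by nlinarith [hx.1])
    nlinarith [mul_le_mul_of_nonneg_left h1' h2, mul_nonneg (mul_nonneg hx0.le h2) h2]
  have h3 := mul_le_mul_of_nonneg_left hlog (Nat.cast_nonneg (α := ℝ) j)
  rw [sub_div ((a + 1) ^ 2)] at hj
  rw [neg_div, neg_div]
  linarith

theorem chi_sq_div_tendsto (j : ℕ) (hb : 0 < b) :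
    Tendsto (fun a => chi j b a ^ 2 / chi j b (a + 1)) atTop (𝓝 0) := by
  have hd := (Real.tendsto_pow_mul_exp_neg_atTop_nhds_zero j).const_mul ((chiConst j b)⁻¹)
  rw [mul_zero] at hd
  have hC := chiConst_pos j hb
  refine squeeze_zero' ?_ ?_ hd
  · filter_upwards [eventually_gt_atTop 0] with a ha
    exact div_nonneg (sq_nonneg _) (chi_pos j hb (by linarith)).le
  · filter_upwards [eventually_ge_atTop 1, eventually_ge_atTop (4 * b + 4)] with a ha1 ha
    have ha0 : 0 < a := by linarith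
    rw [div_le_iff₀ (chi_pos j hb (by linarith))]
    simp only [chi]
    have h1 : a ^ j ≤ (a + 1) ^ j := pow_le_pow_left₀ ha0.le (by linarith) j
    have h2 : Real.exp (-a ^ 2 / (2 * b)) ^ 2 ≤
        Real.exp (-a) * Real.exp (-(a + 1) ^ 2 / (2 * b)) := by
      rw [← Real.exp_add, ← Real.exp_nat_mul, Real.exp_le_exp]
      field_simp
      push_cast
      nlinarith [mul_le_mul_of_nonneg_left ha ha0.le]
    calc (a ^ j * Real.exp (-a ^ 2 / (2 * b)) / chiConst j b) ^ 2
        = a ^ j * a ^ j * Real.exp (-a ^ 2 / (2 * b)) ^ 2 / chiConst j b ^ 2 := by ring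
      _ ≤ a ^ j * (a + 1) ^ j * (Real.exp (-a) * Real.exp (-(a + 1) ^ 2 / (2 * b))) /
          chiConst j b ^ 2 := by gcongr
      _ = _ := by ring

end Vale.Agent.P237.Loss
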