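import Mathlib

/-!
A transport bound on relative entropy on the half line: monotone rearrangement, `log x ≤ x - 1`
and one integration by parts with a one-sided derivative.
-/

namespace Vale.Agent.P237.Loss

open MeasureTheory Set Filter
open scoped Topology

private lemma sub_eq_integral_Ioi {f : ℝ → ℝ} (hf : IntegrableOn f (Ioi 0)) {x : ℝ} (hx : 0 ≤ x) :
    (∫ s in Ioi (0 : ℝ), f s) - (∫ s in (0 : ℝ)..x, f s) = ∫ s in Ioi x, f s := by
  have h := intervalIntegral.integral_interval_add_Ioi hf (hf.mono_set (Ioi_subset_Ioi hx))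
  linarith

private lemma intervalIntegrable_of_Ioi {f : ℝ → ℝ} (hf : IntegrableOn f (Ioi 0)) {a b : ℝ}
    (ha : 0 ≤ a) (hb : 0 ≤ b) : IntervalIntegrable f volume a b := by
  rw [intervalIntegrable_iff]
  exact hf.mono_set fun x hx => lt_of_le_of_lt (le_min ha hb) hx.1

private lemma primitive_props {f : ℝ → ℝ} (hc : ContinuousOn f (Ioi 0))
    (hp : ∀ x, 0 < x → 0 < f x) (hi : IntegrableOn f (Ioi 0)) :
    StrictMonoOn (fun x => ∫ s in (0 : ℝ)..x, f s) (Ici 0) ∧
    ContinuousOn (fun x => ∫ s in (0 : ℝ)..x, f s) (Ici 0) ∧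
    (∀ x, 0 < x → HasDerivAt (fun x => ∫ s in (0 : ℝ)..x, f s) (f x) x) ∧
    (∀ x, 0 < x → 0 < ∫ s in Ioi x, f s) := by
  have hpos : ∀ x y, 0 ≤ x → x < y → 0 < ∫ s in x..y, f s := fun x y hx hxy =>
    intervalIntegral.intervalIntegral_pos_of_pos_on
      (intervalIntegrable_of_Ioi hi hx (hx.trans hxy.le)) (fun s hs => hp s (hx.trans_lt hs.1)) hxy
  refine ⟨fun x hx y hy hxy => ?_, ?_, fun x hx => ?_, fun x hx => ?_⟩
  · have h := intervalIntegral.integral_add_adjacent_intervals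
      (intervalIntegrable_of_Ioi hi le_rfl hx) (intervalIntegrable_of_Ioi hi hx hy)
    have := hpos x y hx hxy
    simp only
    linarith
  · intro x hx
    have hx' : (0 : ℝ) ≤ x := hx
    have h := intervalIntegral.continuousOn_primitive_interval'
      (intervalIntegrable_of_Ioi hi le_rfl (show (0 : ℝ) ≤ x + 1 by linarith)) left_mem_uIcc
    rw [uIcc_of_le (by linarith : (0 : ℝ) ≤ x + 1)] at h
    refine (h x ⟨hx', by linarith⟩).mono_of_mem_nhdsWithin ?_
    exact inter_mem_nhdsWithin (Ici 0) (Iic_mem_nhds (by linarith : x < x + 1))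
  · exact intervalIntegral.integral_hasDerivAt_right (intervalIntegrable_of_Ioi hi le_rfl hx.le)
      (hc.stronglyMeasurableAtFilter isOpen_Ioi x hx) (hc.continuousAt (Ioi_mem_nhds hx))
  · rw [← intervalIntegral.integral_interval_add_Ioi (b := x + 1)
      (hi.mono_set (Ioi_subset_Ioi hx.le)) (hi.mono_set (Ioi_subset_Ioi (by linarith)))]
    refine add_pos_of_pos_of_nonneg (hpos x _ hx.le (by linarith)) ?_
    exact setIntegral_nonneg measurableSet_Ioi fun s hs =>
      (hp s (by linarith [mem_Ioi.1 hs])).le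

/-- Relative entropy on the half line against a transported bracket. -/
theorem entropy_le_of_bracket {w w' ν B : ℝ → ℝ}
    (hνc : ContinuousOn ν (Ioi 0)) (hνp : ∀ x, 0 < x → 0 < ν x) (hνi : IntegrableOn ν (Ioi 0))
    (hν1 : ∫ x in Ioi (0 : ℝ), ν x = 1) (hν2 : IntegrableOn (fun x => x ^ 2 * ν x) (Ioi 0))
    (hdec : ∀ᶠ b in atTop, ∀ x ∈ Icc b (b + 1), ν (b + 1) ≤ ν x)
    (hsq : Tendsto (fun b => ν b ^ 2 / ν (b + 1)) atTop (𝓝 0))
    (hwc : ContinuousOn w (Ioi 0)) (hwp : ∀ x, 0 < x → 0 < w x) (hwi : IntegrableOn w (Ioi 0))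
    {k K : ℝ} (hk : 0 < k) (hlow : ∀ x, 1 ≤ x → k * ν x ≤ w x)
    (hupp : ∀ x, 1 ≤ x → w x ≤ K * ν x) (hnear : ∀ x, 0 < x → x ≤ 1 → w x ≤ K)
    (hw' : ∀ x, 0 < x → HasDerivWithinAt w (w' x) (Ioi x) x)
    (hbr : ∀ x, 0 < x → ∀ z, 0 < z →
      w x * (Real.log (ν z) - Real.log (ν x)) - w' x * (z - x) ≤ B x)
    (hB : IntegrableOn B (Ioi 0))
    (hL : IntegrableOn (fun x => w x * Real.log (w x / ((∫ s in Ioi (0 : ℝ), w s) * ν x)))
      (Ioi 0)) :
    ∫ x in Ioi (0 : ℝ), w x * Real.log (w x / ((∫ s in Ioi (0 : ℝ), w s) * ν x)) ≤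
      ∫ x in Ioi (0 : ℝ), B x := by
  obtain ⟨hNm, hNc, hNd, hNt⟩ := primitive_props hνc hνp hνi
  obtain ⟨hFm, hFc, hFd, hFt⟩ := primitive_props hwc hwp hwi
  set R : ℝ := ∫ s in Ioi (0 : ℝ), w s with hR
  set N : ℝ → ℝ := fun x => ∫ s in (0 : ℝ)..x, ν s with hN
  set F : ℝ → ℝ := fun x => ∫ s in (0 : ℝ)..x, w s with hF
  have hN0 : N 0 = 0 := by simp [hN]
  have hF0 : F 0 = 0 := by simp [hF]
  have hFpos : ∀ x, 0 < x → 0 < F x ∧ F x < R := fun x hx => by
    refine ⟨hF0 ▸ hFm self_mem_Ici hx.le hx, ?_⟩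
    have := hFt x hx
    rw [← sub_eq_integral_Ioi hwi hx.le] at this
    simp only [hF]
    linarith
  have hRpos : 0 < R := ((hFpos 1 one_pos).1).trans (hFpos 1 one_pos).2
  have hNlim : Tendsto N atTop (𝓝 1) :=
    hν1 ▸ intervalIntegral_tendsto_integral_Ioi 0 hνi tendsto_id
  have hex : ∀ u ∈ Ioo (0 : ℝ) 1, ∃ x, 0 < x ∧ N x = u := by
    intro u hu
    obtain ⟨b, hb, hb0⟩ := ((hNlim.eventually (lt_mem_nhds hu.2)).and (eventually_gt_atTop 0)).exists
    obtain ⟨x, hx, hxe⟩ := intermediate_value_Ioo hb0.le (hNc.mono Icc_subset_Ici_self)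
      (show u ∈ Ioo (N 0) (N b) from ⟨hN0.symm ▸ hu.1, hb⟩)
    exact ⟨x, hx.1, hxe⟩
  choose! G hG0 hGN using hex
  have hGd : ∀ u ∈ Ioo (0 : ℝ) 1, HasDerivAt G (ν (G u))⁻¹ u := by
    intro u hu
    have hloc : ∀ᶠ v in 𝓝 u, v ∈ Ioo (0 : ℝ) 1 := isOpen_Ioo.mem_nhds hu
    refine (hNd _ (hG0 u hu)).of_local_left_inverse ?_ (hνp _ (hG0 u hu)).ne'
      (hloc.mono fun v hv => hGN v hv)
    refine Metric.tendsto_nhds.2 fun ε hε => ?_
    set x := G u with hx
    have hx0 : 0 < x := hG0 u hu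
    set δ := min (ε / 2) (x / 2) with hδ
    have hδ0 : 0 < δ := lt_min (by linarith) (by linarith)
    have hδx : δ ≤ x / 2 := min_le_right _ _
    have h1 : N (x - δ) < u := hGN u hu ▸ hNm (show (0 : ℝ) ≤ x - δ by linarith) hx0.le
      (by linarith)
    have h2 : u < N (x + δ) := hGN u hu ▸ hNm hx0.le (show (0 : ℝ) ≤ x + δ by linarith)
      (by linarith)
    filter_upwards [hloc, Ioo_mem_nhds h1 h2] with v hv hv'
    have g0 := (hG0 v hv).le
    have a1 : x - δ < G v := by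
      by_contra hle
      have := hNm.monotoneOn g0 (show (0 : ℝ) ≤ x - δ by linarith) (not_lt.1 hle)
      linarith [hGN v hv, hv'.1]
    have a2 : G v < x + δ := by
      by_contra hle
      have := hNm.monotoneOn (show (0 : ℝ) ≤ x + δ by linarith) g0 (not_lt.1 hle)
      linarith [hGN v hv, hv'.2]
    rw [Real.dist_eq, abs_lt]
    constructor <;> linarith [min_le_left (ε / 2) (x / 2)]
  set T : ℝ → ℝ := fun x => G (F x / R) with hT
  have hu : ∀ x, 0 < x → F x / R ∈ Ioo (0 : ℝ) 1 := fun x hx =>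
    ⟨div_pos (hFpos x hx).1 hRpos, (div_lt_one hRpos).2 (hFpos x hx).2⟩
  have hT0 : ∀ x, 0 < x → 0 < T x := fun x hx => hG0 _ (hu x hx)
  have hTd : ∀ x, 0 < x → HasDerivAt T ((ν (T x))⁻¹ * (w x / R)) x := fun x hx =>
    (hGd _ (hu x hx)).comp x ((hFd x hx).div_const R)
  set L : ℝ → ℝ := fun x => w x * Real.log (w x / (R * ν x)) with hLdef
  have step : ∀ a b, 0 < a → a ≤ b →
      (∫ x in a..b, (L x - B x)) ≤ w b * (T b - b) - w a * (T a - a) := by
    intro a b ha hab
    have hpos : ∀ x ∈ Icc a b, 0 < x := fun x hx => ha.trans_le hx.1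
    refine intervalIntegral.integral_le_sub_of_hasDeriv_right_of_le hab
      (g := fun x => w x * (T x - x))
      (g' := fun x => w' x * (T x - x) + w x * ((ν (T x))⁻¹ * (w x / R) - 1)) ?_ ?_ ?_ ?_
    · exact (hwc.mono fun x hx => hpos x hx).mul (ContinuousOn.sub
        (fun x hx => (hTd x (hpos x hx)).continuousAt.continuousWithinAt) continuousOn_id)
    · intro x hx
      exact (hw' x (ha.trans hx.1)).mul
        (((hTd x (ha.trans hx.1)).sub (hasDerivAt_id' x)).hasDerivWithinAt)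
    · exact (hL.sub hB).mono_set fun x hx => hpos x hx
    · intro x hx
      have hx0 : 0 < x := ha.trans hx.1
      have hνT := hνp _ (hT0 x hx0)
      have hz : 0 < (ν (T x))⁻¹ * (w x / R) :=
        mul_pos (inv_pos.2 hνT) (div_pos (hwp x hx0) hRpos)
      have hlog := mul_le_mul_of_nonneg_left (Real.log_le_sub_one_of_pos hz) (hwp x hx0).le
      rw [Real.log_mul (inv_ne_zero hνT.ne') (div_pos (hwp x hx0) hRpos).ne', Real.log_inv,
        Real.log_div (hwp x hx0).ne' hRpos.ne'] at hlog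
      have hb' := hbr x hx0 (T x) (hT0 x hx0)
      simp only [hLdef]
      rw [Real.log_div (hwp x hx0).ne' (mul_pos hRpos (hνp x hx0)).ne',
        Real.log_mul hRpos.ne' (hνp x hx0).ne']
      linarith
  set M : ℝ := ∫ s in Ioi (0 : ℝ), s ^ 2 * ν s with hM
  have hM0 : 0 ≤ M := setIntegral_nonneg measurableSet_Ioi fun s hs =>
    mul_nonneg (sq_nonneg s) (hνp s hs).le
  have hK : 0 < K := (hwp 1 one_pos).trans_le (hnear 1 one_pos le_rfl)
  have hub : ∀ᶠ b in atTop,
      (w b * T b) ^ 2 ≤ K ^ 2 * M * R / k * (ν b ^ 2 / ν (b + 1)) := by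
    filter_upwards [hdec, eventually_ge_atTop 1] with b hb hb1
    have hb0 : (0 : ℝ) < b := by linarith
    have htail : k * ν (b + 1) ≤ R * ∫ s in Ioi (T b), ν s := by
      rw [← sub_eq_integral_Ioi hνi (hT0 b hb0).le, hν1,
        show (∫ s in (0 : ℝ)..T b, ν s) = F b / R from hGN _ (hu b hb0), mul_sub, mul_one,
        mul_div_cancel₀ _ hRpos.ne']
      simp only [hF, hR]
      rw [sub_eq_integral_Ioi hwi hb0.le, ← intervalIntegral.integral_interval_add_Ioi (b := b + 1)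
        (hwi.mono_set (Ioi_subset_Ioi hb0.le)) (hwi.mono_set (Ioi_subset_Ioi (by linarith)))]
      have h1 : k * ν (b + 1) ≤ ∫ s in b..(b + 1), w s := by
        calc k * ν (b + 1) = ∫ _s in b..(b + 1), k * ν (b + 1) := by simp
          _ ≤ _ := intervalIntegral.integral_mono_on (by linarith) intervalIntegrable_const
            (intervalIntegrable_of_Ioi hwi hb0.le (by linarith)) fun s hs =>
              (mul_le_mul_of_nonneg_left (hb s hs) hk.le).trans (hlow s (hb1.trans hs.1))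
      have h2 : 0 ≤ ∫ s in Ioi (b + 1), w s := setIntegral_nonneg measurableSet_Ioi fun s hs =>
        (hwp s (by linarith [mem_Ioi.1 hs])).le
      linarith
    have hmom : T b ^ 2 * ∫ s in Ioi (T b), ν s ≤ M := by
      rw [← integral_const_mul]
      refine (setIntegral_mono_on ((hνi.mono_set (Ioi_subset_Ioi (hT0 b hb0).le)).const_mul _)
        (hν2.mono_set (Ioi_subset_Ioi (hT0 b hb0).le)) measurableSet_Ioi fun s hs => ?_).trans
        (setIntegral_mono_set hν2 ?_ (Ioi_subset_Ioi (hT0 b hb0).le).eventuallyLE)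
      · exact mul_le_mul_of_nonneg_right (pow_le_pow_left₀ (hT0 b hb0).le (mem_Ioi.1 hs).le 2)
          (hνp s ((hT0 b hb0).trans (mem_Ioi.1 hs))).le
      · filter_upwards [ae_restrict_mem measurableSet_Ioi] with s hs
        exact mul_nonneg (sq_nonneg s) (hνp s hs).le
    have hν1' := hνp (b + 1) (by linarith)
    have hT2 : T b ^ 2 * (k * ν (b + 1)) ≤ M * R := by
      calc T b ^ 2 * (k * ν (b + 1)) ≤ T b ^ 2 * (R * ∫ s in Ioi (T b), ν s) :=
            mul_le_mul_of_nonneg_left htail (sq_nonneg _)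
        _ = (T b ^ 2 * ∫ s in Ioi (T b), ν s) * R := by ring
        _ ≤ M * R := mul_le_mul_of_nonneg_right hmom hRpos.le
    have hw2 : w b ^ 2 ≤ K ^ 2 * ν b ^ 2 := by
      rw [← mul_pow]; exact pow_le_pow_left₀ (hwp b hb0).le (hupp b hb1) 2
    calc (w b * T b) ^ 2 ≤ K ^ 2 * ν b ^ 2 * T b ^ 2 := by
          rw [mul_pow]; exact mul_le_mul_of_nonneg_right hw2 (sq_nonneg _)
      _ ≤ K ^ 2 * ν b ^ 2 * (M * R / (k * ν (b + 1))) :=
          mul_le_mul_of_nonneg_left ((le_div_iff₀ (mul_pos hk hν1')).2 hT2) (by positivity)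
      _ = _ := by field_simp
  have hlimb : Tendsto (fun b => w b * T b) atTop (𝓝 0) := by
    have h := (hsq.const_mul (K ^ 2 * M * R / k)).sqrt
    rw [mul_zero, Real.sqrt_zero] at h
    refine squeeze_zero_norm' ?_ h
    filter_upwards [hub] with b hb
    exact Real.abs_le_sqrt hb
  set Φ : ℝ → ℝ := fun x => L x - B x with hΦ
  have hΦi : IntegrableOn Φ (Ioi 0) := hL.sub hB
  have hbound : ∀ a, 0 < a → a ≤ 1 → ∀ b, 1 ≤ b →
      (∫ x in a..b, Φ x) ≤ w b * T b + K * a := by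
    intro a ha ha1 b hb
    have h := step a b ha (ha1.trans hb)
    have h1 := mul_nonneg (hwp a ha).le (hT0 a ha).le
    have h2 := mul_le_mul_of_nonneg_right (hnear a ha ha1) ha.le
    have h3 := mul_nonneg (hwp b (by linarith)).le (show (0 : ℝ) ≤ b by linarith)
    linarith
  have key : ∀ a, 0 < a → a ≤ 1 → (∫ x in Ioi a, Φ x) ≤ K * a := fun a ha ha1 => by
    refine le_of_tendsto_of_tendsto (intervalIntegral_tendsto_integral_Ioi a
      (hΦi.mono_set (Ioi_subset_Ioi ha.le)) tendsto_id) (hlimb.add_const (K * a))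
      ((eventually_ge_atTop 1).mono fun b hb => hbound a ha ha1 b hb) |>.trans (le_of_eq (by simp))
  have hconc : (∫ x in Ioi (0 : ℝ), Φ x) ≤ 0 := by
    have hcont : ContinuousWithinAt (fun a => ∫ x in (0 : ℝ)..a, Φ x) (Icc 0 1) 0 := by
      have h := intervalIntegral.continuousOn_primitive_interval'
        (intervalIntegrable_of_Ioi hΦi le_rfl zero_le_one) left_mem_uIcc
      rw [uIcc_of_le zero_le_one] at h
      exact h 0 ⟨le_rfl, zero_le_one⟩
    have h1 := (hcont.mono Ioc_subset_Icc_self).tendsto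
    rw [intervalIntegral.integral_same] at h1
    have h2 : Tendsto (fun a : ℝ => K * a) (𝓝[Ioc (0 : ℝ) 1] 0) (𝓝 0) := by
      have hc : Continuous fun a : ℝ => K * a := by fun_prop
      have h := (hc.tendsto 0).mono_left (nhdsWithin_le_nhds (s := Ioc (0 : ℝ) 1))
      rwa [mul_zero] at h
    have : (𝓝[Ioc (0 : ℝ) 1] (0 : ℝ)).NeBot := by
      refine left_nhdsWithin_Ioc_neBot zero_lt_one
    have h12 := h1.add h2
    rw [add_zero] at h12
    refine le_of_tendsto_of_tendsto tendsto_const_nhds h12 ?_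
    filter_upwards [self_mem_nhdsWithin] with a ha
    have := key a ha.1 ha.2
    rw [← sub_eq_integral_Ioi hΦi ha.1.le] at this
    linarith
  simp only [hΦ] at hconc
  rw [integral_sub hL hB] at hconc
  linarith

end Vale.Agent.P237.Loss
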