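import Mathlib
import Vale.Agent.P237.Full.Defs
import Vale.Agent.P237.Loss.Transport
import Vale.Agent.P237.Loss.Chi

/-!
The entropy lost on one fibre of the lift: at a fixed height `y` the relative entropy of the
profile ratio along the chi law is at most a local functional of the profile and its left slope.
-/

namespace Vale.Agent.P237.Loss

open MeasureTheory Set Filter Full
open scoped Topology

/-- The left slope of a profile. -/
noncomputable def dleft (φ : ℝ → ℝ) (t : ℝ) : ℝ := derivWithin φ (Iio t) t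

/-- The ratio of the section function to that of the ball. -/
noncomputable def ballRatio (m : ℕ) (φ : ℝ → ℝ) (t : ℝ) : ℝ := (φ t / √(1 - t ^ 2)) ^ m

/-- The variable of the loss functional. -/
noncomputable def lossVar (m : ℕ) (φ : ℝ → ℝ) (t : ℝ) : ℝ :=
  m * (t ^ 2 + t * (1 - t ^ 2) * dleft φ t / φ t) / (m + 1)

/-- The loss function `-log (1 - c) - c`. -/
noncomputable def lossFun (c : ℝ) : ℝ := -Real.log (1 - c) - c

variable {m : ℕ} {φ : ℝ → ℝ}

theorem profile_pos (hφ : IsProfile m φ) {t : ℝ} (ht : t ∈ Ioo (-1 : ℝ) 1) : 0 < φ t :=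
  lt_of_lt_of_le (Real.sqrt_pos.2 (by nlinarith [ht.1, ht.2]))
    (hφ.above t (Ioo_subset_Icc_self ht))

theorem profile_le_top (hφ : IsProfile m φ) {t : ℝ} (ht : t ∈ Icc (-1 : ℝ) 1) : φ t ≤ φ 0 := by
  have ht' : -t ∈ Icc (-1 : ℝ) 1 := ⟨by linarith [ht.2], by linarith [ht.1]⟩
  have h := hφ.concave.2 ht ht' (show (0 : ℝ) ≤ 1 / 2 by norm_num)
    (show (0 : ℝ) ≤ 1 / 2 by norm_num) (by norm_num)
  simp only [smul_eq_mul, hφ.even] at h
  rw [show 1 / 2 * t + 1 / 2 * (-t) = (0 : ℝ) by ring] at h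
  linarith

theorem profile_continuousOn (hφ : IsProfile m φ) : ContinuousOn φ (Ioo (-1) 1) :=
  (hφ.concave.subset Ioo_subset_Icc_self (convex_Ioo _ _)).continuousOn isOpen_Ioo

theorem hasDerivWithinAt_dleft (hφ : IsProfile m φ) {t : ℝ} (ht : t ∈ Ioo (-1 : ℝ) 1) :
    HasDerivWithinAt φ (dleft φ t) (Iio t) t := by
  have h := (hφ.concave.neg.hasDerivWithinAt_leftDeriv_of_mem_interior
    (by rwa [interior_Icc])).neg
  simp only [neg_neg] at h
  exact h.differentiableWithinAt.hasDerivWithinAt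

theorem dleft_bounds (hφ : IsProfile m φ) {t : ℝ} (ht0 : 0 < t) (ht1 : t < 1) :
    dleft φ t ≤ 0 ∧ -(φ t) ≤ (1 - t) * dleft φ t := by
  have ht : t ∈ Icc (-1 : ℝ) 1 := ⟨by linarith, ht1.le⟩
  have hd := hasDerivWithinAt_dleft hφ (t := t) ⟨by linarith, ht1⟩
  refine ⟨?_, ?_⟩
  · have h := hφ.concave.le_slope_of_hasDerivWithinAt_Iio (x := -t)
      ⟨by linarith, by linarith⟩ ht (by linarith) hd
    rwa [slope_def_field, hφ.even, sub_self, zero_div] at h
  · have hlim := (hasDerivWithinAt_iff_tendsto_slope' (self_notMem_Iio)).1 hd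
    have h1 : -(φ t) / (1 - t) ≤ dleft φ t := by
      refine ge_of_tendsto hlim ?_
      filter_upwards [Ioo_mem_nhdsLT (show -1 < t by linarith)] with x hx
      rw [slope_comm, slope_def_field]
      refine le_trans ?_ (hφ.concave.slope_anti_adjacent ⟨hx.1.le, by linarith [hx.2]⟩
        (show (1 : ℝ) ∈ Icc (-1 : ℝ) 1 from ⟨by norm_num, le_rfl⟩) hx.2 ht1)
      refine div_le_div_of_nonneg_right ?_ (by linarith)
      have := hφ.above 1 ⟨by norm_num, le_rfl⟩
      linarith [Real.sqrt_nonneg (1 - (1 : ℝ) ^ 2)]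
    rwa [div_le_iff₀ (by linarith), mul_comm] at h1

theorem lossVar_bounds (hφ : IsProfile m φ) {t : ℝ} (ht0 : 0 < t) (ht1 : t < 1) :
    -3 ≤ lossVar m φ t ∧ lossVar m φ t ≤ m / (m + 1) := by
  obtain ⟨h1, h2⟩ := dleft_bounds hφ ht0 ht1
  have hp := profile_pos hφ (t := t) ⟨by linarith, ht1⟩
  have hm : (0 : ℝ) ≤ m := Nat.cast_nonneg m
  set a := t * (1 - t ^ 2) * dleft φ t / φ t with ha
  have ha0 : a ≤ 0 := by
    refine div_nonpos_of_nonpos_of_nonneg (mul_nonpos_of_nonneg_of_nonpos ?_ h1) hp.le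
    nlinarith
  have ha1 : -2 ≤ a := by
    rw [ha, le_div_iff₀ hp]
    have h3 := mul_le_mul_of_nonneg_left h2 (show 0 ≤ t * (1 + t) by nlinarith)
    nlinarith [mul_le_mul_of_nonneg_right (show t * (1 + t) ≤ 2 by nlinarith) hp.le]
  have h4 : t ^ 2 ≤ 1 := pow_le_one₀ ht0.le ht1.le
  constructor
  · rw [lossVar, le_div_iff₀ (by positivity)]
    nlinarith [sq_nonneg t, mul_nonneg hm (show 0 ≤ t ^ 2 + a + 3 by nlinarith)]
  · rw [lossVar]
    exact div_le_div_of_nonneg_right (by nlinarith) (by positivity)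

theorem abs_lossFun_le {m : ℕ} {c : ℝ} (h0 : -3 ≤ c) (h1 : c ≤ m / (m + 1)) :
    |lossFun c| ≤ (m : ℝ) + 6 := by
  have hc : 1 / ((m : ℝ) + 1) ≤ 1 - c := by
    have : 1 - (m : ℝ) / (m + 1) = 1 / (m + 1) := by field_simp; ring
    linarith
  have hpos : 0 < 1 - c := lt_of_lt_of_le (by positivity) hc
  have hc1 : c < 1 := by linarith
  have l1 : Real.log (1 - c) ≤ 3 := by
    linarith [Real.log_le_sub_one_of_pos hpos]
  have l2 : -(m : ℝ) ≤ Real.log (1 - c) := by
    refine le_trans ?_ (Real.log_le_log (by positivity) hc)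
    rw [one_div, Real.log_inv]
    linarith [Real.log_le_sub_one_of_pos (show (0 : ℝ) < m + 1 by positivity)]
  rw [lossFun, abs_le]
  constructor <;> linarith [Nat.cast_nonneg (α := ℝ) m]

/-- The height on the unit interval seen from `(y, q)`. -/
noncomputable def ray (y q : ℝ) : ℝ := y / √(q ^ 2 + y ^ 2)

theorem ray_mem {y q : ℝ} (hy : 0 < y) (hq : 0 < q) : ray y q ∈ Ioo (0 : ℝ) 1 := by
  have hs : 0 < √(q ^ 2 + y ^ 2) := Real.sqrt_pos.2 (by positivity)
  refine ⟨div_pos hy hs, (div_lt_one hs).2 (Real.lt_sqrt_of_sq_lt ?_)⟩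
  nlinarith

theorem sqrt_one_sub_ray {y q : ℝ} (hy : 0 < y) (hq : 0 < q) :
    √(1 - ray y q ^ 2) = q / √(q ^ 2 + y ^ 2) := by
  have hsq : √(q ^ 2 + y ^ 2) ^ 2 = q ^ 2 + y ^ 2 := Real.sq_sqrt (by positivity)
  have h : 1 - ray y q ^ 2 = (q / √(q ^ 2 + y ^ 2)) ^ 2 := by
    rw [ray, div_pow, div_pow, hsq]
    field_simp
    ring
  rw [h, Real.sqrt_sq (by positivity)]

/-- The lifted ratio along the fibre. -/
noncomputable def fibreWeight (m : ℕ) (φ : ℝ → ℝ) (y q : ℝ) : ℝ :=
  chi (m + 1) 1 q * ballRatio m φ (ray y q)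

theorem ballRatio_ge_one (hφ : IsProfile m φ) {t : ℝ} (ht : t ∈ Ioo (-1 : ℝ) 1) :
    1 ≤ ballRatio m φ t :=
  one_le_pow₀ ((one_le_div (Real.sqrt_pos.2 (by nlinarith [ht.1, ht.2]))).2
    (hφ.above t (Ioo_subset_Icc_self ht)))

/-- The entropy lost on one fibre, with the integrability that goes with it. -/
theorem fibre_entropy_le (hφ : IsProfile m φ) {y : ℝ} (hy : 0 < y) :
    IntegrableOn (fibreWeight m φ y) (Ioi 0) ∧
    1 ≤ ∫ q in Ioi (0 : ℝ), fibreWeight m φ y q ∧
    IntegrableOn (fun q => fibreWeight m φ y q * Real.log (ballRatio m φ (ray y q))) (Ioi 0) ∧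
    IntegrableOn (fun q => fibreWeight m φ y q *
      ((m + 1) * lossFun (lossVar m φ (ray y q)))) (Ioi 0) ∧
    (∫ q in Ioi (0 : ℝ), fibreWeight m φ y q * Real.log (ballRatio m φ (ray y q))) -
        (∫ q in Ioi (0 : ℝ), fibreWeight m φ y q) *
          Real.log (∫ q in Ioi (0 : ℝ), fibreWeight m φ y q) ≤
      ∫ q in Ioi (0 : ℝ), fibreWeight m φ y q * ((m + 1) * lossFun (lossVar m φ (ray y q))) := by
  set w := fibreWeight m φ y with hw
  set r : ℝ → ℝ := fun q => ballRatio m φ (ray y q) with hr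
  set ν := chi (m + 1) 1 with hν
  have hνp : ∀ q, 0 < q → 0 < ν q := fun q hq => chi_pos (m + 1) one_pos hq
  have hmem : ∀ q, 0 < q → ray y q ∈ Ioo (-1 : ℝ) 1 := fun q hq =>
    ⟨by linarith [(ray_mem hy hq).1], (ray_mem hy hq).2⟩
  have hr1 : ∀ q, 0 < q → 1 ≤ r q := fun q hq => ballRatio_ge_one hφ (hmem q hq)
  have hwν : ∀ q, 0 < q → ν q ≤ w q := fun q hq =>
    le_mul_of_one_le_right (hνp q hq).le (hr1 q hq)
  have hwp : ∀ q, 0 < q → 0 < w q := fun q hq => (hνp q hq).trans_le (hwν q hq)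
  have hcray : ContinuousOn (ray y) (Ioi 0) := continuousOn_const.div (by fun_prop)
    fun q (hq : 0 < q) => (Real.sqrt_pos.2 (by positivity)).ne'
  have hrc : ContinuousOn r (Ioi 0) := by
    refine ((((profile_continuousOn hφ).comp hcray fun q hq => hmem q hq)).div
      ((Real.continuous_sqrt.comp_continuousOn (continuousOn_const.sub (hcray.pow 2))))
        fun q hq => ?_).pow m
    simp only [Pi.sub_apply, Pi.pow_apply, Function.comp_apply]
    exact (Real.sqrt_pos.2 (by nlinarith [(ray_mem hy hq).1, (ray_mem hy hq).2])).ne'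
  have hwc : ContinuousOn w (Ioi 0) := (continuous_chi _ _).continuousOn.mul hrc
  -- the envelope
  have hφ1 : 1 ≤ φ 0 := by simpa using hφ.above 0 (by simp)
  set Z := chiConst (m + 1) 1 with hZdef
  have hZ : 0 < Z := chiConst_pos _ one_pos
  set E : ℝ → ℝ := fun q => Real.exp (-q ^ 2 / (2 * 1)) / Z with hE
  set S : ℝ → ℝ := fun q => √(q ^ 2 + y ^ 2) with hS
  have hSpos : ∀ q, 0 < S q := fun q => Real.sqrt_pos.2 (by positivity)
  have hSq : ∀ q, 0 < q → q ≤ S q ∧ S q ≤ q + y := fun q hq =>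
    ⟨Real.le_sqrt_of_sq_le (by nlinarith), Real.sqrt_le_iff.2 ⟨by linarith, by nlinarith⟩⟩
  have hrle : ∀ q, 0 < q → r q ≤ (φ 0 * (S q / q)) ^ m := fun q hq => by
    refine pow_le_pow_left₀ (div_nonneg (profile_pos hφ (hmem q hq)).le (Real.sqrt_nonneg _)) ?_ m
    rw [sqrt_one_sub_ray hy hq, div_div_eq_mul_div, ← mul_div_assoc]
    exact div_le_div_of_nonneg_right
      (mul_le_mul_of_nonneg_right (profile_le_top hφ (Ioo_subset_Icc_self (hmem q hq)))
        (hSpos q).le) hq.le
  have hwle : ∀ q, 0 < q → w q ≤ q * (φ 0 * S q) ^ m * E q := fun q hq => by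
    refine (mul_le_mul_of_nonneg_left (hrle q hq) (hνp q hq).le).trans (le_of_eq ?_)
    simp only [hν, chi, hE, ← hZdef, ← mul_div_assoc, div_pow]
    field_simp
    ring
  have hdom : ∀ {f : ℝ → ℝ}, AEStronglyMeasurable f (volume.restrict (Ioi 0)) →
      (∃ C, ∀ q, 0 < q → |f q| ≤ C * (φ 0 * (q + y) * E q * (φ 0 * (q + y)) ^ m)) →
      IntegrableOn f (Ioi 0) := by
    rintro f hf ⟨C, hC⟩
    have hint : IntegrableOn (fun q : ℝ => φ 0 * (q + y) * E q * (φ 0 * (q + y)) ^ m) (Ioi 0) := by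
      have h := ((((integrableOn_pow_mul_exp (m + 1) (one_pos : (0 : ℝ) < 1)).const_mul
        (2 ^ m)).add ((integrableOn_pow_mul_exp 0 (one_pos : (0 : ℝ) < 1)).const_mul
        (2 ^ m * y ^ (m + 1)))).const_mul (φ 0 ^ (m + 1) / Z))
      refine h.mono' (Continuous.aestronglyMeasurable (by fun_prop)) ?_
      filter_upwards [ae_restrict_mem measurableSet_Ioi] with q (hq : 0 < q)
      rw [Real.norm_eq_abs, abs_of_nonneg (by positivity)]
      have h2 := add_pow_le hq.le hy.le (m + 1)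
      rw [Nat.add_sub_cancel] at h2
      calc φ 0 * (q + y) * E q * (φ 0 * (q + y)) ^ m
          = φ 0 ^ (m + 1) / Z * ((q + y) ^ (m + 1) * Real.exp (-q ^ 2 / (2 * 1))) := by
            simp only [hE, mul_pow, pow_succ]; ring
        _ ≤ φ 0 ^ (m + 1) / Z *
            (2 ^ m * (q ^ (m + 1) + y ^ (m + 1)) * Real.exp (-q ^ 2 / (2 * 1))) := by gcongr
        _ = _ := by simp only [Pi.add_apply, pow_zero, one_mul]; ring
    refine (hint.const_mul C).mono' hf ?_
    filter_upwards [ae_restrict_mem measurableSet_Ioi] with q hq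
    exact hC q hq
  have hEp : ∀ q, 0 ≤ E q := fun q => div_nonneg (Real.exp_nonneg _) hZ.le
  have hwdom : ∀ q, 0 < q → w q ≤ φ 0 * (q + y) * E q * (φ 0 * (q + y)) ^ m := fun q hq => by
    refine (hwle q hq).trans ?_
    rw [mul_right_comm]
    exact mul_le_mul (mul_le_mul_of_nonneg_right (by nlinarith) (hEp q))
      (pow_le_pow_left₀ (by positivity [hSpos q]) (by nlinarith [(hSq q hq).2]) m)
      (pow_nonneg (by nlinarith [hSpos q]) m) (mul_nonneg (by nlinarith) (hEp q))
  have hwi : IntegrableOn w (Ioi 0) := hdom (hwc.aestronglyMeasurable measurableSet_Ioi)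
    ⟨1, fun q hq => by rw [abs_of_pos (hwp q hq), one_mul]; exact hwdom q hq⟩
  set R := ∫ q in Ioi (0 : ℝ), w q with hR
  have hR1 : 1 ≤ R := by
    rw [← integral_chi (m + 1) (one_pos : (0 : ℝ) < 1)]
    exact setIntegral_mono_on (integrableOn_chi _ one_pos) hwi measurableSet_Ioi hwν
  have hli : IntegrableOn (fun q => w q * Real.log (r q)) (Ioi 0) := by
    refine hdom ((hwc.mul (hrc.log fun q hq =>
      (zero_lt_one.trans_le (hr1 q hq)).ne')).aestronglyMeasurable measurableSet_Ioi) ⟨m, fun q hq => ?_⟩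
    have hb : 0 < φ 0 * (S q / q) := by
      have := hSpos q
      positivity
    have h1 : Real.log (r q) ≤ m * (φ 0 * (S q / q)) := by
      refine (Real.log_le_log (zero_lt_one.trans_le (hr1 q hq)) (hrle q hq)).trans ?_
      rw [Real.log_pow]
      exact mul_le_mul_of_nonneg_left
        ((Real.log_le_sub_one_of_pos hb).trans (by linarith)) (Nat.cast_nonneg m)
    have h0 : 0 ≤ Real.log (r q) := Real.log_nonneg (hr1 q hq)
    rw [abs_of_nonneg (mul_nonneg (hwp q hq).le h0)]
    calc w q * Real.log (r q) ≤ q * (φ 0 * S q) ^ m * E q * (m * (φ 0 * (S q / q))) :=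
          mul_le_mul (hwle q hq) h1 h0 (by positivity [hSpos q, hEp q])
      _ = m * (φ 0 * S q * E q * (φ 0 * S q) ^ m) := by field_simp
      _ ≤ _ := by
          have := (hSq q hq).2
          have := hSpos q
          have := hEp q
          gcongr
  set B : ℝ → ℝ := fun q => w q * ((m + 1) * lossFun (lossVar m φ (ray y q))) with hB
  have hBi : IntegrableOn B (Ioi 0) := by
    refine hdom ?_ ⟨(m + 1) * ((m : ℝ) + 6), fun q hq => ?_⟩
    · have hanti : AntitoneOn (dleft φ) (Ioo (-1) 1) := by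
        intro a ha b hb hab
        have h := hφ.concave.neg.monotoneOn_leftDeriv (by rwa [interior_Icc]) (by rwa [interior_Icc])
          hab
        simp only [derivWithin.neg] at h
        exact neg_le_neg_iff.1 h
      have hray : AntitoneOn (ray y) (Ioi 0) := fun a (ha : 0 < a) b _ hab =>
        div_le_div_of_nonneg_left hy.le (hSpos a) (Real.sqrt_le_sqrt (by nlinarith))
      have hmono : MonotoneOn (fun q => dleft φ (ray y q)) (Ioi 0) := fun a ha b hb hab =>
        hanti (hmem b hb) (hmem a ha) (hray ha hb hab)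
      have md : AEMeasurable (fun q => dleft φ (ray y q)) (volume.restrict (Ioi 0)) :=
        aemeasurable_restrict_of_monotoneOn measurableSet_Ioi hmono
      have mp : AEMeasurable (fun q => φ (ray y q)) (volume.restrict (Ioi 0)) :=
        ((profile_continuousOn hφ).comp hcray fun q hq => hmem q hq).aemeasurable measurableSet_Ioi
      have mt : AEMeasurable (ray y) (volume.restrict (Ioi 0)) :=
        hcray.aemeasurable measurableSet_Ioi
      refine (AEMeasurable.mul (hwc.aemeasurable measurableSet_Ioi) ?_).aestronglyMeasurable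
      have key : AEMeasurable ((fun p : ℝ × ℝ × ℝ => ((m : ℝ) + 1) *
          (-Real.log (1 - m * (p.1 ^ 2 + p.1 * (1 - p.1 ^ 2) * p.2.2 / p.2.1) / (m + 1)) -
            m * (p.1 ^ 2 + p.1 * (1 - p.1 ^ 2) * p.2.2 / p.2.1) / (m + 1))) ∘
          fun q => (ray y q, φ (ray y q), dleft φ (ray y q))) (volume.restrict (Ioi 0)) :=
        (by fun_prop : Measurable _).comp_aemeasurable (mt.prodMk (mp.prodMk md))
      simpa only [lossVar, lossFun, Function.comp_def] using key
    · obtain ⟨l0, l1⟩ := lossVar_bounds hφ (ray_mem hy hq).1 (ray_mem hy hq).2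
      rw [hB, abs_mul, abs_of_pos (hwp q hq), abs_mul, abs_of_nonneg (by positivity), mul_comm]
      exact mul_le_mul (mul_le_mul_of_nonneg_left (abs_lossFun_le l0 l1) (by positivity))
        (hwdom q hq) (hwp q hq).le (by positivity)
  refine ⟨hwi, hR1, hli, hBi, ?_⟩
  have heq : ∀ q, 0 < q → w q * Real.log (w q / (R * ν q)) =
      w q * Real.log (r q) - w q * Real.log R := fun q hq => by
    rw [← mul_sub, ← Real.log_div (zero_lt_one.trans_le (hr1 q hq)).ne' (by linarith)]
    congr 2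
    rw [hw, fibreWeight, mul_comm R, mul_div_mul_left _ _ (hνp q hq).ne']
  have hLi : IntegrableOn (fun q => w q * Real.log (w q / (R * ν q))) (Ioi 0) :=
    IntegrableOn.congr_fun (hli.sub (hwi.mul_const (Real.log R))) (fun q hq => (heq q hq).symm)
      measurableSet_Ioi
  have main := entropy_le_of_bracket (ν := ν) (w := w) (B := B) (k := 1)
    (w' := fun q => w q * (((m : ℝ) + 1) / q - q + m * (dleft φ (ray y q) / φ (ray y q) +
      ray y q / (1 - ray y q ^ 2)) * (-(ray y q * q / (q ^ 2 + y ^ 2)))))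
    (K := (φ 0 * (1 + y)) ^ m + φ 0 * (1 + y) * (1 / Z) * (φ 0 * (1 + y)) ^ m)
    (continuous_chi _ _).continuousOn hνp (integrableOn_chi _ one_pos) (integral_chi _ one_pos)
    (integrableOn_sq_mul_chi _ one_pos) (chi_eventually_le _ one_pos) (chi_sq_div_tendsto _ one_pos)
    hwc hwp hwi one_pos (fun q hq => by rw [one_mul]; exact hwν q (by linarith)) ?_ ?_ ?_ ?_ hBi hLi
  · rw [setIntegral_congr_fun measurableSet_Ioi heq, integral_sub hli (hwi.mul_const _),
      integral_mul_const] at main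
    exact main
  · intro q hq
    have hq0 : 0 < q := by linarith
    have h1 : r q ≤ (φ 0 * (1 + y)) ^ m := by
      refine (hrle q hq0).trans (pow_le_pow_left₀ (by positivity [hSpos q]) ?_ m)
      refine mul_le_mul_of_nonneg_left ?_ (by linarith)
      rw [div_le_iff₀ hq0]
      nlinarith [(hSq q hq0).2]
    rw [mul_comm _ (ν q)]
    refine mul_le_mul_of_nonneg_left (h1.trans (le_add_of_nonneg_right ?_)) (hνp q hq0).le
    positivity
  · intro q hq hq1
    refine (hwdom q hq).trans (le_add_of_nonneg_of_le (by positivity) ?_)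
    have hE1 : E q ≤ 1 / Z := by
      refine div_le_div_of_nonneg_right (Real.exp_le_one_iff.2 ?_) hZ.le
      nlinarith [sq_nonneg q]
    have := hEp q
    gcongr
  · intro q hq
    obtain ⟨ht0, ht1⟩ := ray_mem hy hq
    have hsS : 0 < q ^ 2 + y ^ 2 := by positivity
    have hD : 0 < 1 - ray y q ^ 2 := by nlinarith
    have dray : HasDerivAt (ray y) (-(ray y q * q / (q ^ 2 + y ^ 2))) q := by
      have h := (((hasDerivAt_pow 2 q).add_const (y ^ 2)).sqrt hsS.ne').inv (hSpos q).ne'
      refine (h.const_mul y).congr_deriv ?_ |>.congr_of_eventuallyEq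
        (Eventually.of_forall fun x => by simp only [ray, div_eq_mul_inv, Pi.inv_apply])
      simp only [ray, Real.sq_sqrt hsS.le]
      field_simp
      ring
    have hmaps : MapsTo (ray y) (Ioi q) (Iio (ray y q)) := fun x (hx : q < x) =>
      div_lt_div_of_pos_left hy (hSpos q) (Real.sqrt_lt_sqrt hsS.le (by nlinarith))
    have dsqrt : HasDerivWithinAt (fun t => √(1 - t ^ 2))
        (-(ray y q) / √(1 - ray y q ^ 2)) (Iio (ray y q)) (ray y q) := by
      refine ((((hasDerivAt_pow 2 (ray y q)).const_sub 1).sqrt hD.ne').congr_deriv ?_).hasDerivWithinAt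
      field_simp
      ring
    have drat := (((hasDerivWithinAt_dleft hφ (hmem q hq)).div dsqrt
      (Real.sqrt_pos.2 hD).ne').pow m).comp q dray.hasDerivWithinAt hmaps
    have dchi : HasDerivAt ν (ν q * (((m : ℝ) + 1) / q - q)) q := by
      have h := (((hasDerivAt_pow (m + 1) q).mul
        (((hasDerivAt_pow 2 q).neg.div_const (2 * (1 : ℝ))).exp)).div_const Z)
      refine h.congr_deriv ?_
      simp only [hν, chi, ← hZdef, Pi.neg_apply]
      field_simp
      push_cast
      ring
    refine (dchi.hasDerivWithinAt.mul drat).congr_deriv ?_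
    have hs : √(1 - ray y q ^ 2) ^ 2 = 1 - ray y q ^ 2 := Real.sq_sqrt hD.le
    have hp := profile_pos hφ (hmem q hq)
    have hs0 := Real.sqrt_pos.2 hD
    simp only [hw, fibreWeight, Function.comp_apply, hν, ballRatio, Pi.div_apply, Pi.pow_apply]
    rcases Nat.eq_zero_or_pos m with rfl | hm
    · simp
    obtain ⟨j, rfl⟩ : ∃ j, m = j + 1 := ⟨m - 1, by omega⟩
    rw [Nat.add_sub_cancel, pow_succ]
    field_simp
    rw [hs]
    push_cast
    ring
  · intro q hq z hz
    obtain ⟨ht0, ht1⟩ := ray_mem hy hq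
    obtain ⟨-, l1⟩ := lossVar_bounds hφ ht0 ht1
    set n : ℝ := (m : ℝ) + 1 with hn
    have hn0 : 0 < n := by positivity
    have hc1 : lossVar m φ (ray y q) < 1 := by
      refine lt_of_le_of_lt l1 ((div_lt_one hn0).2 ?_)
      linarith
    have hlogν : ∀ x, 0 < x → Real.log (ν x) = n * Real.log x - x ^ 2 / 2 - Real.log Z := by
      intro x hx
      rw [hν, chi, ← hZdef, Real.log_div (mul_pos (pow_pos hx _) (Real.exp_pos _)).ne' hZ.ne',
        Real.log_mul (pow_pos hx _).ne' (Real.exp_pos _).ne', Real.log_pow, Real.log_exp]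
      push_cast
      ring
    have hp := profile_pos hφ (hmem q hq)
    have hDq : 1 - ray y q ^ 2 = q ^ 2 / (q ^ 2 + y ^ 2) := by
      rw [ray, div_pow, Real.sq_sqrt (by positivity)]
      field_simp
      ring
    have hD : 0 < 1 - ray y q ^ 2 := by nlinarith
    -- the derivative of the logarithm of the ratio is minus `n` times the loss variable over `q`
    have hτ : m * (dleft φ (ray y q) / φ (ray y q) + ray y q / (1 - ray y q ^ 2)) *
        (-(ray y q * q / (q ^ 2 + y ^ 2))) = -(n * lossVar m φ (ray y q) / q) := by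
      have : q / (q ^ 2 + y ^ 2) = (1 - ray y q ^ 2) / q := by rw [hDq]; field_simp
      rw [show ray y q * q / (q ^ 2 + y ^ 2) = ray y q * (q / (q ^ 2 + y ^ 2)) by ring, this,
        lossVar]
      field_simp
      ring
    simp only [hB, hlogν z hz, hlogν q hq, hτ]
    rw [mul_assoc (w q), ← mul_sub]
    refine mul_le_mul_of_nonneg_left ?_ (hwp q hq).le
    set c := lossVar m φ (ray y q) with hc
    have hlog := Real.log_le_sub_one_of_pos
      (mul_pos (sub_pos.2 hc1) (div_pos hz hq) : 0 < (1 - c) * (z / q))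
    rw [Real.log_mul (sub_pos.2 hc1).ne' (div_pos hz hq).ne', Real.log_div hz.ne' hq.ne'] at hlog
    have h5 := mul_le_mul_of_nonneg_left hlog hn0.le
    have e : (n / q - q + -(n * c / q)) * (z - q) =
        n * ((1 - c) * (z / q)) - n + n * c - q * (z - q) := by
      field_simp
      ring
    rw [lossFun, e]
    nlinarith [sq_nonneg (z - q)]

end Vale.Agent.P237.Loss
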