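import Mathlib
import Vale.Agent.P237.Loss.Fibre

/-!
Integration over the fibres: the lift of a function of the height to the plane of the Gaussian
coordinate and the fibre coordinate.
-/

namespace Vale.Agent.P237.Loss

open MeasureTheory Set Filter
open scoped Topology

/-- The standard Gaussian density. -/
noncomputable def gauss (y : ℝ) : ℝ := Real.exp (-y ^ 2 / 2) / √(2 * Real.pi)

/-- The constant of the lift. -/
noncomputable def liftConst (m : ℕ) : ℝ :=
  chiConst (m + 2) 1 / (√(2 * Real.pi) * chiConst (m + 1) 1)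

theorem gauss_pos (y : ℝ) : 0 < gauss y :=
  div_pos (Real.exp_pos _) (Real.sqrt_pos.2 (by positivity))

theorem chiConst_sq (j : ℕ) {b : ℝ} (hb : 0 < b) :
    chiConst j (b ^ 2) = b ^ (j + 1) * chiConst j 1 := by
  have h := integral_comp_mul_left_Ioi'
    (fun x : ℝ => x ^ j * Real.exp (-x ^ 2 / (2 * b ^ 2))) 0 hb
  rw [mul_zero] at h
  rw [chiConst, ← h, chiConst, smul_eq_mul, ← integral_const_mul, ← integral_const_mul]
  refine setIntegral_congr_fun measurableSet_Ioi fun x _ => ?_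
  rw [show -(b * x) ^ 2 / (2 * b ^ 2) = -x ^ 2 / (2 * 1) by field_simp]
  ring

/-- The height coordinate along the fibre. -/
noncomputable def height (q t : ℝ) : ℝ := q * t / √(1 - t ^ 2)

theorem ray_height {q t : ℝ} (hq : 0 < q) (ht : t ∈ Ioo (0 : ℝ) 1) : ray (height q t) q = t := by
  have hD : 0 < 1 - t ^ 2 := by nlinarith [ht.1, ht.2]
  have hs : q ^ 2 + height q t ^ 2 = (q / √(1 - t ^ 2)) ^ 2 := by
    rw [height, div_pow, div_pow, mul_pow, Real.sq_sqrt hD.le]
    field_simp
    ring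
  rw [ray, hs, Real.sqrt_sq (by positivity), height]
  have := Real.sqrt_pos.2 hD
  field_simp

theorem height_ray {q y : ℝ} (hq : 0 < q) (hy : 0 < y) : height q (ray y q) = y := by
  have hs : 0 < √(q ^ 2 + y ^ 2) := Real.sqrt_pos.2 (by positivity)
  rw [height, sqrt_one_sub_ray hy hq, ray]
  field_simp

theorem hasDerivAt_height {q t : ℝ} (ht : t ∈ Ioo (0 : ℝ) 1) :
    HasDerivAt (height q) (q / √(1 - t ^ 2) ^ 3) t := by
  have hD : 0 < 1 - t ^ 2 := by nlinarith [ht.1, ht.2]
  have hs := Real.sqrt_pos.2 hD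
  have h := ((hasDerivAt_id' t).const_mul q).div (((hasDerivAt_pow 2 t).const_sub 1).sqrt hD.ne')
    hs.ne'
  refine h.congr_deriv ?_
  have e : √(1 - t ^ 2) ^ 2 = 1 - t ^ 2 := Real.sq_sqrt hD.le
  field_simp
  rw [e]
  ring

theorem height_image {q : ℝ} (hq : 0 < q) : height q '' Ioo 0 1 = Ioi 0 := by
  ext y
  constructor
  · rintro ⟨t, ht, rfl⟩
    exact div_pos (mul_pos hq ht.1) (Real.sqrt_pos.2 (by nlinarith [ht.1, ht.2]))
  · exact fun hy => ⟨ray y q, ray_mem hy hq, height_ray hq hy⟩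

theorem height_injOn {q : ℝ} (hq : 0 < q) : InjOn (height q) (Ioo 0 1) := fun a ha b hb h => by
  rw [← ray_height hq ha, h, ray_height hq hb]

/-- Integrability of a quadratically bounded test function against the radial law of the lift. -/
theorem integrableOn_chi_test (j : ℕ) {g : ℝ → ℝ} (hg : Continuous g) {C : ℝ}
    (hC : ∀ y, |g y| ≤ C * (1 + y ^ 2)) (t : ℝ) :
    IntegrableOn (fun s => s ^ j * Real.exp (-s ^ 2 / (2 * 1)) * g (s * t)) (Ioi 0) := by
  refine Integrable.mono' (((integrableOn_pow_mul_exp j (one_pos : (0 : ℝ) < 1)).const_mul C).add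
    ((integrableOn_pow_mul_exp (j + 2) (one_pos : (0 : ℝ) < 1)).const_mul (C * t ^ 2)))
    (Continuous.aestronglyMeasurable (by fun_prop)) ?_
  filter_upwards [ae_restrict_mem measurableSet_Ioi] with s (hs : 0 < s)
  rw [Real.norm_eq_abs, abs_mul, abs_of_pos (by positivity)]
  refine (mul_le_mul_of_nonneg_left (hC (s * t)) (by positivity)).trans (le_of_eq ?_)
  simp only [Pi.add_apply, pow_add]
  ring

/-- The lift of a function of the height against a test function of the Gaussian coordinate. -/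
theorem lift_integral_test {m : ℕ} {F g : ℝ → ℝ} (hFm : Measurable ((Ioo 0 1).indicator F))
    (hg : Continuous g) {C : ℝ} (hC : ∀ y, |g y| ≤ C * (1 + y ^ 2))
    (hF : IntegrableOn (fun t => F t * √(1 - t ^ 2) ^ m) (Ioo 0 1)) :
    IntegrableOn (fun y => g y * ∫ q in Ioi (0 : ℝ), gauss y * chi (m + 1) 1 q * F (ray y q))
      (Ioi 0) ∧
    (∫ y in Ioi (0 : ℝ), g y * ∫ q in Ioi (0 : ℝ), gauss y * chi (m + 1) 1 q * F (ray y q)) =
      liftConst m * ∫ t in Ioo (0 : ℝ) 1, F t * √(1 - t ^ 2) ^ m *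
        ∫ s in Ioi (0 : ℝ), chi (m + 2) 1 s * g (s * t) := by
  set μ : Measure ℝ := volume.restrict (Ioi 0) with hμ
  set κ : Measure ℝ := volume.restrict (Ioo 0 1) with hκ
  set Z := chiConst (m + 1) 1 with hZdef
  have hZ : 0 < Z := chiConst_pos _ one_pos
  have h2π : 0 < √(2 * Real.pi) := Real.sqrt_pos.2 (by positivity)
  set Fi := (Ioo (0 : ℝ) 1).indicator F with hFi
  set H : ℝ × ℝ → ℝ := fun p => Fi p.2 / (√(1 - p.2 ^ 2) ^ 3 * (√(2 * Real.pi) * Z)) *
    (p.1 ^ (m + 2) * Real.exp (-p.1 ^ 2 / (2 * √(1 - p.2 ^ 2) ^ 2)) * g (height p.1 p.2)) with hH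
  have hHm : Measurable H := by simp only [hH, height]; fun_prop
  have hscale : ∀ (f : ℝ → ℝ), ∀ t ∈ Ioo (0 : ℝ) 1,
      (∫ q in Ioi (0 : ℝ), q ^ (m + 2) * Real.exp (-q ^ 2 / (2 * √(1 - t ^ 2) ^ 2)) *
        f (height q t)) = √(1 - t ^ 2) ^ (m + 3) *
          ∫ s in Ioi (0 : ℝ), s ^ (m + 2) * Real.exp (-s ^ 2 / (2 * 1)) * f (s * t) := by
    intro f t ht
    have hs : 0 < √(1 - t ^ 2) := Real.sqrt_pos.2 (by nlinarith [ht.1, ht.2])
    have h := integral_comp_mul_left_Ioi' (fun q : ℝ => q ^ (m + 2) *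
      Real.exp (-q ^ 2 / (2 * √(1 - t ^ 2) ^ 2)) * f (height q t)) 0 hs
    rw [mul_zero] at h
    rw [← h, smul_eq_mul, ← integral_const_mul, ← integral_const_mul]
    refine setIntegral_congr_fun measurableSet_Ioi fun x _ => ?_
    rw [show -(√(1 - t ^ 2) * x) ^ 2 / (2 * √(1 - t ^ 2) ^ 2) = -x ^ 2 / (2 * 1) by field_simp,
      show height (√(1 - t ^ 2) * x) t = x * t by rw [height]; field_simp]
    ring
  have hlift : ∀ (f : ℝ → ℝ) (t : ℝ), (∫ s in Ioi (0 : ℝ), chi (m + 2) 1 s * f (s * t)) =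
      (∫ s in Ioi (0 : ℝ), s ^ (m + 2) * Real.exp (-s ^ 2 / (2 * 1)) * f (s * t)) /
        chiConst (m + 2) 1 := fun f t => by
    rw [← integral_div]
    exact setIntegral_congr_fun measurableSet_Ioi fun s _ => by simp only [chi]; ring
  have hZ2 : chiConst (m + 2) 1 ≠ 0 := (chiConst_pos _ one_pos).ne'
  have hqi : ∀ t ∈ Ioo (0 : ℝ) 1, Integrable (fun q => H (q, t)) μ ∧
      (∫ q, H (q, t) ∂μ) = liftConst m * (F t * √(1 - t ^ 2) ^ m *
        ∫ s in Ioi (0 : ℝ), chi (m + 2) 1 s * g (s * t)) ∧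
      (∫ q, ‖H (q, t)‖ ∂μ) = liftConst m * (‖F t * √(1 - t ^ 2) ^ m‖ *
        ∫ s in Ioi (0 : ℝ), chi (m + 2) 1 s * |g (s * t)|) := by
    intro t ht
    have hs : 0 < √(1 - t ^ 2) := Real.sqrt_pos.2 (by nlinarith [ht.1, ht.2])
    refine ⟨?_, ?_, ?_⟩
    · simp only [hH, hFi, indicator_of_mem ht]
      refine Integrable.const_mul ?_ _
      have hg2 : ∀ q, |g (height q t)| ≤ C * (1 + height q t ^ 2) := fun q => hC _
      refine Integrable.mono' (((integrableOn_pow_mul_exp (m + 2) (pow_pos hs 2)).const_mul C).add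
        ((integrableOn_pow_mul_exp (m + 4) (pow_pos hs 2)).const_mul
          (C * (t / √(1 - t ^ 2)) ^ 2))) (by simp only [height]; fun_prop) ?_
      filter_upwards [ae_restrict_mem measurableSet_Ioi] with q (hq : 0 < q)
      rw [Real.norm_eq_abs, abs_mul, abs_of_pos (by positivity)]
      refine (mul_le_mul_of_nonneg_left (hg2 q) (by positivity)).trans (le_of_eq ?_)
      simp only [Pi.add_apply, height, pow_add]
      ring
    · simp only [hH, hFi, indicator_of_mem ht, hμ]
      rw [integral_const_mul, hscale g t ht, hlift, liftConst, ← hZdef, pow_add]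
      field_simp
    · have e2 : ∀ q ∈ Ioi (0 : ℝ), ‖H (q, t)‖ = ‖F t‖ / (√(1 - t ^ 2) ^ 3 * (√(2 * Real.pi) * Z)) *
          (q ^ (m + 2) * Real.exp (-q ^ 2 / (2 * √(1 - t ^ 2) ^ 2)) * |g (height q t)|) :=
        fun q (hq : 0 < q) => by
        simp only [hH, hFi, indicator_of_mem ht, norm_mul, norm_div, norm_pow,
          Real.norm_of_nonneg hq.le, Real.norm_of_nonneg (Real.exp_pos _).le,
          Real.norm_of_nonneg hs.le, Real.norm_of_nonneg h2π.le, Real.norm_of_nonneg hZ.le,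
          Real.norm_eq_abs (g _)]
      rw [hμ, setIntegral_congr_fun measurableSet_Ioi e2, integral_const_mul,
        hscale (fun y => |g y|) t ht, hlift (fun y => |g y|), liftConst, ← hZdef, pow_add, norm_mul,
        norm_pow, Real.norm_of_nonneg hs.le]
      field_simp
  have hgb : ∀ t ∈ Ioo (0 : ℝ) 1, (∫ s in Ioi (0 : ℝ), chi (m + 2) 1 s * |g (s * t)|) ≤
      C * ∫ s in Ioi (0 : ℝ), chi (m + 2) 1 s * (1 + s ^ 2) := by
    intro t ht
    rw [← integral_const_mul]
    have hC0 : 0 ≤ C := by simpa using (abs_nonneg _).trans (hC 0)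
    have hi : IntegrableOn (fun s => chi (m + 2) 1 s * (1 + s ^ 2)) (Ioi 0) := by
      refine ((integrableOn_chi (m + 2) one_pos).add
        (integrableOn_sq_mul_chi (m + 2) (one_pos : (0 : ℝ) < 1))).congr_fun (fun s _ => ?_)
        measurableSet_Ioi
      simp only [Pi.add_apply]
      ring
    refine setIntegral_mono_on ?_ (hi.const_mul C) measurableSet_Ioi fun s (hs : 0 < s) => ?_
    · refine IntegrableOn.congr_fun ((integrableOn_chi_test (m + 2) hg.abs
        (fun y => by rw [abs_abs]; exact hC y) t).div_const (chiConst (m + 2) 1))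
        (fun s _ => ?_) measurableSet_Ioi
      simp only [chi]
      ring
    · rw [mul_left_comm]
      refine mul_le_mul_of_nonneg_left ((hC _).trans ?_) (chi_pos _ one_pos hs).le
      have : s ^ 2 * t ^ 2 ≤ s ^ 2 :=
        mul_le_of_le_one_right (sq_nonneg s) (pow_le_one₀ ht.1.le ht.2.le)
      refine mul_le_mul_of_nonneg_left ?_ hC0
      rw [mul_pow]
      linarith
  have hHi : Integrable H (μ.prod κ) := by
    rw [integrable_prod_iff' hHm.aestronglyMeasurable]
    refine ⟨?_, (hF.norm.const_mul (liftConst m *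
      (C * ∫ s in Ioi (0 : ℝ), chi (m + 2) 1 s * (1 + s ^ 2)))).mono'
      (hHm.norm.stronglyMeasurable.integral_prod_left').aestronglyMeasurable ?_⟩
    · filter_upwards [ae_restrict_mem measurableSet_Ioo] with t ht
      exact (hqi t ht).1
    · filter_upwards [ae_restrict_mem measurableSet_Ioo] with t ht
      rw [Real.norm_of_nonneg (integral_nonneg fun _ => norm_nonneg _), (hqi t ht).2.2,
        mul_assoc (liftConst m), mul_comm (C * _)]
      exact mul_le_mul_of_nonneg_left (mul_le_mul_of_nonneg_left (hgb t ht) (norm_nonneg _))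
        (div_nonneg (chiConst_pos _ one_pos).le (mul_nonneg h2π.le hZ.le))
  set K : ℝ × ℝ → ℝ := fun p => g p.2 * (gauss p.2 * chi (m + 1) 1 p.1 * Fi (ray p.2 p.1)) with hK
  have hKm : Measurable K := by
    simp only [hK, gauss, chi, ray]
    fun_prop
  have hjac : ∀ q, 0 < q → ∀ t ∈ Ioo (0 : ℝ) 1,
      |q / √(1 - t ^ 2) ^ 3| * K (q, height q t) = H (q, t) := by
    intro q hq t ht
    have hD : 0 < 1 - t ^ 2 := by nlinarith [ht.1, ht.2]
    have hs := Real.sqrt_pos.2 hD
    simp only [hK, hH, ray_height hq ht, gauss, chi, ← hZdef]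
    rw [abs_of_pos (by positivity)]
    have he : Real.exp (-height q t ^ 2 / 2) * Real.exp (-q ^ 2 / (2 * 1)) =
        Real.exp (-q ^ 2 / (2 * √(1 - t ^ 2) ^ 2)) := by
      rw [← Real.exp_add, height, div_pow, mul_pow, Real.sq_sqrt hD.le]
      congr 1
      field_simp
      ring
    rw [← he]
    field_simp
    ring
  have hinner : ∀ q, 0 < q → Integrable (fun t => H (q, t)) κ →
      Integrable (fun y => K (q, y)) μ ∧ (∫ y, K (q, y) ∂μ) = (∫ t, H (q, t) ∂κ) ∧
      (∫ y, ‖K (q, y)‖ ∂μ) = ∫ t, ‖H (q, t)‖ ∂κ := by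
    intro q hq hi
    have hd : ∀ t ∈ Ioo (0 : ℝ) 1,
        HasDerivWithinAt (height q) (q / √(1 - t ^ 2) ^ 3) (Ioo 0 1) t :=
      fun t ht => (hasDerivAt_height ht).hasDerivWithinAt
    simp only [hμ, ← height_image hq]
    refine ⟨(integrableOn_image_iff_integrableOn_abs_deriv_smul measurableSet_Ioo hd
      (height_injOn hq) _).2 (IntegrableOn.congr_fun hi (fun t ht => ?_) measurableSet_Ioo), ?_, ?_⟩
    · rw [smul_eq_mul]; exact (hjac q hq t ht).symm
    · rw [integral_image_eq_integral_abs_deriv_smul measurableSet_Ioo hd (height_injOn hq)]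
      exact setIntegral_congr_fun measurableSet_Ioo fun t ht => by
        rw [smul_eq_mul]; exact hjac q hq t ht
    · rw [integral_image_eq_integral_abs_deriv_smul measurableSet_Ioo hd (height_injOn hq)]
      refine setIntegral_congr_fun measurableSet_Ioo fun t ht => ?_
      simp only [smul_eq_mul, ← hjac q hq t ht, Real.norm_eq_abs, abs_mul, abs_abs]
  have hae : ∀ᵐ q ∂μ, Integrable (fun y => K (q, y)) μ ∧
      (∫ y, K (q, y) ∂μ) = (∫ t, H (q, t) ∂κ) ∧
      (∫ y, ‖K (q, y)‖ ∂μ) = ∫ t, ‖H (q, t)‖ ∂κ := by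
    filter_upwards [ae_restrict_mem measurableSet_Ioi, hHi.prod_right_ae] with q hq hi
    exact hinner q hq hi
  have hKi : Integrable K (μ.prod μ) := by
    rw [integrable_prod_iff hKm.aestronglyMeasurable]
    exact ⟨hae.mono fun q h => h.1,
      hHi.norm.integral_prod_left.congr (hae.mono fun q h => h.2.2.symm)⟩
  have hKF : ∀ y ∈ Ioi (0 : ℝ), g y * (∫ q in Ioi (0 : ℝ), gauss y * chi (m + 1) 1 q * F (ray y q)) =
      ∫ q in Ioi (0 : ℝ), K (q, y) := fun y hy => by
    rw [← integral_const_mul]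
    exact setIntegral_congr_fun measurableSet_Ioi fun q hq => by
      simp only [hK, hFi, indicator_of_mem (ray_mem hy hq)]
  refine ⟨IntegrableOn.congr_fun hKi.integral_prod_right (fun y hy => (hKF y hy).symm)
    measurableSet_Ioi, ?_⟩
  rw [setIntegral_congr_fun measurableSet_Ioi hKF, ← integral_const_mul,
    ← integral_integral_swap (f := fun q y => K (q, y)) hKi,
    integral_congr_ae (hae.mono fun q h => h.2.1),
    integral_integral_swap (f := fun q t => H (q, t)) hHi]
  exact setIntegral_congr_fun measurableSet_Ioo fun t ht => (hqi t ht).2.1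

/-- The lift of a function of the height. -/
theorem lift_integral {m : ℕ} {F : ℝ → ℝ} (hFm : Measurable ((Ioo 0 1).indicator F))
    (hF : IntegrableOn (fun t => F t * √(1 - t ^ 2) ^ m) (Ioo 0 1)) :
    IntegrableOn (fun y => ∫ q in Ioi (0 : ℝ), gauss y * chi (m + 1) 1 q * F (ray y q)) (Ioi 0) ∧
    (∫ y in Ioi (0 : ℝ), ∫ q in Ioi (0 : ℝ), gauss y * chi (m + 1) 1 q * F (ray y q)) =
      liftConst m * ∫ t in Ioo (0 : ℝ) 1, F t * √(1 - t ^ 2) ^ m := by
  have h := lift_integral_test (g := fun _ => 1) hFm continuous_const (C := 1)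
    (fun y => by rw [abs_one]; nlinarith [sq_nonneg y]) hF
  simpa only [one_mul, mul_one, integral_chi (m + 2) (one_pos : (0 : ℝ) < 1)] using h

end Vale.Agent.P237.Loss
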