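import Mathlib
import Vale.Agent.P237.Loss.Lift

/-!
The entropy of a profile ratio against the entropy of its Gaussian lift: the difference is at most
a local functional of the profile and its left slope.
-/

namespace Vale.Agent.P237.Loss

open MeasureTheory Set Filter Full
open scoped Topology

variable {m : ℕ} {φ : ℝ → ℝ}

/-- The lifted ratio at height `y`. -/
noncomputable def liftRatio (m : ℕ) (φ : ℝ → ℝ) (y : ℝ) : ℝ :=
  ∫ q in Ioi (0 : ℝ), fibreWeight m φ y q

private lemma Ioo_sub : Ioo (0 : ℝ) 1 ⊆ Ioo (-1) 1 := Ioo_subset_Ioo_left (by norm_num)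

private lemma ratio_mul_sqrt {t : ℝ} (ht : t ∈ Ioo (0 : ℝ) 1) :
    ballRatio m φ t * √(1 - t ^ 2) ^ m = φ t ^ m := by
  rw [ballRatio, ← mul_pow, div_mul_cancel₀]
  exact (Real.sqrt_pos.2 (by nlinarith [ht.1, ht.2])).ne'

private lemma measurable_indicator_continuousOn {f : ℝ → ℝ} (hf : ContinuousOn f (Ioo 0 1)) :
    Measurable ((Ioo (0 : ℝ) 1).indicator f) := by
  classical
  rw [← Set.piecewise_eq_indicator]
  exact hf.measurable_piecewise continuousOn_const measurableSet_Ioo

theorem measurable_indicator_lossVar (hφ : IsProfile m φ) :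
    Measurable ((Ioo (0 : ℝ) 1).indicator (lossVar m φ)) := by
  classical
  have md : Measurable ((Ioo (0 : ℝ) 1).domRestrict (dleft φ)) := by
    refine Antitone.measurable fun a b hab => ?_
    have h := hφ.concave.neg.monotoneOn_leftDeriv (by rw [interior_Icc]; exact Ioo_sub a.2)
      (by rw [interior_Icc]; exact Ioo_sub b.2) (Subtype.coe_le_coe.2 hab)
    simp only [derivWithin.neg] at h
    exact neg_le_neg_iff.1 h
  have mp : Measurable ((Ioo (0 : ℝ) 1).domRestrict φ) :=
    (continuousOn_iff_continuous_domRestrict.1 ((profile_continuousOn hφ).mono Ioo_sub)).measurable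
  refine measurable_of_restrict_of_restrict_compl (s := Ioo (0 : ℝ) 1) measurableSet_Ioo ?_ ?_
  · have e : (Ioo (0 : ℝ) 1).domRestrict ((Ioo (0 : ℝ) 1).indicator (lossVar m φ)) =
        fun t : Ioo (0 : ℝ) 1 => m * ((t : ℝ) ^ 2 + (t : ℝ) * (1 - (t : ℝ) ^ 2) *
          (Ioo (0 : ℝ) 1).domRestrict (dleft φ) t / (Ioo (0 : ℝ) 1).domRestrict φ t) / (m + 1) := by
      funext t
      simp [lossVar, Set.domRestrict]
    rw [e]
    fun_prop
  · have e : (Ioo (0 : ℝ) 1)ᶜ.domRestrict ((Ioo (0 : ℝ) 1).indicator (lossVar m φ)) = fun _ => 0 := by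
      funext t
      simp [Set.domRestrict, indicator_of_notMem (show (t : ℝ) ∉ Ioo (0 : ℝ) 1 from t.2)]
    rw [e]
    exact measurable_const

private lemma integrableOn_inv_sqrt :
    IntegrableOn (fun t : ℝ => 1 / √(1 - t ^ 2)) (Ioo 0 1) :=
  (intervalIntegral.integrableOn_deriv_of_nonneg Real.continuous_arcsin.continuousOn
    (fun t ht => Real.hasDerivAt_arcsin (by linarith [ht.1]) ht.2.ne)
    fun t _ => by positivity).mono_set Ioo_subset_Ioc_self

/-- The entropy of the ratio exceeds that of its lift by at most the integral of the loss. -/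
theorem lift_entropy_le (hφ : IsProfile m φ) :
    IntegrableOn (fun t => φ t ^ m * Real.log (ballRatio m φ t)) (Ioo 0 1) ∧
    IntegrableOn (fun y => gauss y * liftRatio m φ y) (Ioi 0) ∧
    IntegrableOn (fun y => gauss y * (liftRatio m φ y * Real.log (liftRatio m φ y))) (Ioi 0) ∧
    IntegrableOn (fun t => φ t ^ m * ((m + 1) * lossFun (lossVar m φ t))) (Ioo 0 1) ∧
    (∫ y in Ioi (0 : ℝ), gauss y * liftRatio m φ y) =
      liftConst m * ∫ t in Ioo (0 : ℝ) 1, φ t ^ m ∧
    liftConst m * (∫ t in Ioo (0 : ℝ) 1, φ t ^ m * Real.log (ballRatio m φ t)) ≤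
      (∫ y in Ioi (0 : ℝ), gauss y * (liftRatio m φ y * Real.log (liftRatio m φ y))) +
        liftConst m * ∫ t in Ioo (0 : ℝ) 1, φ t ^ m * ((m + 1) * lossFun (lossVar m φ t)) := by
  have hcφ : ContinuousOn φ (Ioo 0 1) := (profile_continuousOn hφ).mono Ioo_sub
  have hcs : ContinuousOn (fun t : ℝ => √(1 - t ^ 2)) (Ioo 0 1) :=
    Continuous.continuousOn (by fun_prop)
  have hs0 : ∀ t ∈ Ioo (0 : ℝ) 1, 0 < √(1 - t ^ 2) := fun t ht =>
    Real.sqrt_pos.2 (by nlinarith [ht.1, ht.2])
  have hcr : ContinuousOn (ballRatio m φ) (Ioo 0 1) :=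
    (hcφ.div hcs fun t ht => (hs0 t ht).ne').pow m
  have hr1 : ∀ t ∈ Ioo (0 : ℝ) 1, 1 ≤ ballRatio m φ t := fun t ht =>
    ballRatio_ge_one hφ (Ioo_sub ht)
  have hcl : ContinuousOn (fun t => Real.log (ballRatio m φ t)) (Ioo 0 1) :=
    hcr.log fun t ht => (zero_lt_one.trans_le (hr1 t ht)).ne'
  have hφm : ∀ t ∈ Ioo (0 : ℝ) 1, 0 ≤ φ t ^ m ∧ φ t ^ m ≤ φ 0 ^ m := fun t ht =>
    ⟨pow_nonneg (profile_pos hφ (Ioo_sub ht)).le m, pow_le_pow_left₀ (profile_pos hφ (Ioo_sub ht)).le
      (profile_le_top hφ (Ioo_subset_Icc_self (Ioo_sub ht))) m⟩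
  have i1 : IntegrableOn (fun t => φ t ^ m) (Ioo 0 1) := by
    refine IntegrableOn.of_bound (by simp) ((hcφ.pow m).aestronglyMeasurable measurableSet_Ioo)
      (φ 0 ^ m) ?_
    filter_upwards [ae_restrict_mem measurableSet_Ioo] with t ht
    rw [Real.norm_eq_abs, abs_of_nonneg (hφm t ht).1]
    exact (hφm t ht).2
  have i2 : IntegrableOn (fun t => φ t ^ m * Real.log (ballRatio m φ t)) (Ioo 0 1) := by
    refine Integrable.mono' ((integrableOn_inv_sqrt.const_mul (φ 0 ^ m * (m * φ 0))))
      (((hcφ.pow m).mul hcl).aestronglyMeasurable measurableSet_Ioo) ?_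
    filter_upwards [ae_restrict_mem measurableSet_Ioo] with t ht
    have h0 := Real.log_nonneg (hr1 t ht)
    rw [Real.norm_eq_abs, abs_of_nonneg (mul_nonneg (hφm t ht).1 h0), mul_assoc (φ 0 ^ m)]
    refine mul_le_mul (hφm t ht).2 ?_ h0 ((hφm t ht).1.trans (hφm t ht).2)
    rw [ballRatio, Real.log_pow, mul_assoc]
    refine mul_le_mul_of_nonneg_left ((Real.log_le_sub_one_of_pos
      (div_pos (profile_pos hφ (Ioo_sub ht)) (hs0 t ht))).trans ?_) (Nat.cast_nonneg m)
    rw [mul_one_div]
    linarith [div_le_div_of_nonneg_right (profile_le_top hφ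
      (Ioo_subset_Icc_self (Ioo_sub ht))) (hs0 t ht).le]
  have mlv : AEMeasurable (lossVar m φ) (volume.restrict (Ioo (0 : ℝ) 1)) :=
    (measurable_indicator_lossVar hφ).aemeasurable.congr
      (indicator_ae_eq_restrict measurableSet_Ioo)
  have i3 : IntegrableOn (fun t => φ t ^ m * ((m + 1) * lossFun (lossVar m φ t))) (Ioo 0 1) := by
    refine i1.mul_bdd (c := (m + 1) * ((m : ℝ) + 6)) ?_ ?_
    · exact ((by unfold lossFun; fun_prop : Measurable fun c => ((m : ℝ) + 1) * lossFun c)
        |>.comp_aemeasurable mlv).aestronglyMeasurable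
    · filter_upwards [ae_restrict_mem measurableSet_Ioo] with t ht
      obtain ⟨l0, l1⟩ := lossVar_bounds hφ ht.1 ht.2
      rw [Real.norm_eq_abs, abs_mul, abs_of_nonneg (by positivity)]
      exact mul_le_mul_of_nonneg_left (abs_lossFun_le l0 l1) (by positivity)
  -- the three lifts
  have L1 := lift_integral (m := m) (measurable_indicator_continuousOn hcr)
    (i1.congr_fun (fun t ht => (ratio_mul_sqrt ht).symm) measurableSet_Ioo)
  have e2 : ∀ t ∈ Ioo (0 : ℝ) 1, φ t ^ m * Real.log (ballRatio m φ t) =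
      ballRatio m φ t * Real.log (ballRatio m φ t) * √(1 - t ^ 2) ^ m := fun t ht => by
    rw [← ratio_mul_sqrt (φ := φ) ht]; ring
  have L2 := lift_integral (m := m) (F := fun t => ballRatio m φ t * Real.log (ballRatio m φ t))
    (measurable_indicator_continuousOn (hcr.mul hcl))
    (i2.congr_fun e2 measurableSet_Ioo)
  have e3 : ∀ t ∈ Ioo (0 : ℝ) 1, φ t ^ m * ((m + 1) * lossFun (lossVar m φ t)) =
      ballRatio m φ t * ((m + 1) * lossFun (lossVar m φ t)) * √(1 - t ^ 2) ^ m := fun t ht => by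
    rw [← ratio_mul_sqrt (φ := φ) ht]; ring
  have hm3 : Measurable ((Ioo (0 : ℝ) 1).indicator
      fun t => ballRatio m φ t * ((m + 1) * lossFun (lossVar m φ t))) := by
    have h : (Ioo (0 : ℝ) 1).indicator
        (fun t => ballRatio m φ t * ((m + 1) * lossFun (lossVar m φ t))) =
        fun t => (Ioo (0 : ℝ) 1).indicator (ballRatio m φ) t *
          ((m + 1) * lossFun ((Ioo (0 : ℝ) 1).indicator (lossVar m φ) t)) := by
      funext t
      by_cases ht : t ∈ Ioo (0 : ℝ) 1 <;> simp [ht]
    rw [h]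
    have := measurable_indicator_continuousOn hcr
    have := measurable_indicator_lossVar hφ
    unfold lossFun
    fun_prop
  have L3 := lift_integral (m := m) hm3 (i3.congr_fun e3 measurableSet_Ioo)
  set R := liftRatio m φ with hR
  set a : ℝ → ℝ := fun y =>
    ∫ q in Ioi (0 : ℝ), fibreWeight m φ y q * Real.log (ballRatio m φ (ray y q)) with ha
  set b : ℝ → ℝ := fun y =>
    ∫ q in Ioi (0 : ℝ), fibreWeight m φ y q * ((m + 1) * lossFun (lossVar m φ (ray y q))) with hb
  have g1 : ∀ y ∈ Ioi (0 : ℝ), (∫ q in Ioi (0 : ℝ), gauss y * chi (m + 1) 1 q *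
      ballRatio m φ (ray y q)) = gauss y * R y := fun y _ => by
    simp only [hR, liftRatio, fibreWeight, ← integral_const_mul, ← mul_assoc]
  have g2 : ∀ y ∈ Ioi (0 : ℝ), (∫ q in Ioi (0 : ℝ), gauss y * chi (m + 1) 1 q *
      (ballRatio m φ (ray y q) * Real.log (ballRatio m φ (ray y q)))) = gauss y * a y :=
    fun y _ => by
    simp only [ha, fibreWeight, ← integral_const_mul, ← mul_assoc]
  have g3 : ∀ y ∈ Ioi (0 : ℝ), (∫ q in Ioi (0 : ℝ), gauss y * chi (m + 1) 1 q *
      (ballRatio m φ (ray y q) * ((m + 1) * lossFun (lossVar m φ (ray y q))))) = gauss y * b y :=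
    fun y _ => by
    simp only [hb, fibreWeight, ← integral_const_mul, ← mul_assoc]
  have j1 := L1.1.congr_fun g1 measurableSet_Ioi
  have j2 := L2.1.congr_fun g2 measurableSet_Ioi
  have j3 := L3.1.congr_fun g3 measurableSet_Ioi
  have hlower : ∀ y ∈ Ioi (0 : ℝ), R y * Real.log (R y) ≤ a y := by
    intro y hy
    obtain ⟨w1, w2, w3, -, -⟩ := fibre_entropy_le hφ hy
    have hRp : 0 < R y := zero_lt_one.trans_le w2
    have hi := ((integrableOn_chi (m + 1) (one_pos : (0 : ℝ) < 1)).const_mul (R y))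
    have hs : IntegrableOn (fun q => fibreWeight m φ y q - R y * chi (m + 1) 1 q) (Ioi 0) :=
      w1.sub hi
    calc R y * Real.log (R y) = ∫ q in Ioi (0 : ℝ), (fibreWeight m φ y q * Real.log (R y) +
          (fibreWeight m φ y q - R y * chi (m + 1) 1 q)) := by
          rw [integral_add (w1.mul_const _) hs, integral_sub w1 hi, integral_mul_const,
            integral_const_mul, integral_chi _ one_pos]
          simp only [hR, liftRatio]
          ring
      _ ≤ a y := by
          refine setIntegral_mono_on ((w1.mul_const _).add hs) w3 measurableSet_Ioi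
            fun q hq => ?_
          have hr := zero_lt_one.trans_le (hr1 _ (ray_mem hy hq))
          have hν := chi_pos (m + 1) one_pos (b := 1) hq
          have h := mul_le_mul_of_nonneg_left (Real.log_le_sub_one_of_pos (div_pos hRp hr))
            (mul_nonneg hν.le hr.le)
          rw [Real.log_div hRp.ne' hr.ne', mul_sub_one, mul_assoc _ (ballRatio m φ (ray y q)),
            mul_assoc _ (ballRatio m φ (ray y q)), mul_div_cancel₀ _ hr.ne'] at h
          simp only [fibreWeight]
          linarith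
  have hRm : AEMeasurable R (volume.restrict (Ioi 0)) := by
    refine (j1.aestronglyMeasurable.aemeasurable.div
      (by unfold gauss; fun_prop : Measurable gauss).aemeasurable).congr ?_
    exact Eventually.of_forall fun y => mul_div_cancel_left₀ (R y) (gauss_pos y).ne'
  have j4 : IntegrableOn (fun y => gauss y * (R y * Real.log (R y))) (Ioi 0) := by
    refine j2.mono' ?_ ?_
    · have hgm : Measurable gauss := by unfold gauss; fun_prop
      exact (hgm.aemeasurable.mul
        (hRm.mul (Real.measurable_log.comp_aemeasurable hRm))).aestronglyMeasurable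
    · filter_upwards [ae_restrict_mem measurableSet_Ioi] with y hy
      have h1 : 1 ≤ R y := (fibre_entropy_le hφ hy).2.1
      rw [Real.norm_eq_abs, abs_of_nonneg (mul_nonneg (gauss_pos y).le
        (mul_nonneg (by linarith) (Real.log_nonneg h1)))]
      exact mul_le_mul_of_nonneg_left (hlower y hy) (gauss_pos y).le
  refine ⟨i2, j1, j4, i3, ?_, ?_⟩
  · rw [← setIntegral_congr_fun measurableSet_Ioi g1, L1.2,
      setIntegral_congr_fun measurableSet_Ioo fun t ht => ratio_mul_sqrt ht]
  · rw [setIntegral_congr_fun measurableSet_Ioo e2, setIntegral_congr_fun measurableSet_Ioo e3,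
      ← L2.2, ← L3.2, setIntegral_congr_fun measurableSet_Ioi g2,
      setIntegral_congr_fun measurableSet_Ioi g3, ← integral_add j4 j3]
    refine setIntegral_mono_on j2 (j4.add j3) measurableSet_Ioi fun y hy => ?_
    have h := (fibre_entropy_le hφ hy).2.2.2.2
    rw [← mul_add]
    refine mul_le_mul_of_nonneg_left ?_ (gauss_pos y).le
    simp only [ha, hb, hR, liftRatio]
    linarith

end Vale.Agent.P237.Loss
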