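import Mathlib
import Vale.Agent.P237.Loss.Entropy
import Vale.Agent.P237.Full.Data.Entropy
import Vale.Agent.P237.Full.Profile

/-!
The averaged entropy datum at the John contacts with the lift removed: relative entropy of the
profiles less the local loss.
-/

namespace Vale.Agent.P237.Loss

open MeasureTheory Set Filter Full ProbabilityTheory
open scoped Topology RealInnerProductSpace

variable {m : ℕ} {φ : ℝ → ℝ}

theorem liftConst_eq (m : ℕ) : liftConst m = kappa m / kappa (m + 1) := by
  have e : ∀ k, chiConst (k + 1) 1 = √2 ^ k * Real.Gamma ((k : ℝ) / 2 + 1) := fun k => by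
    rw [chiConst, ← integral_half_gauss k]
    norm_num
  rw [liftConst, e, e, kappa, kappa, Real.sqrt_mul (by norm_num : (0 : ℝ) ≤ 2), pow_succ, pow_succ]
  have h1 := (Real.Gamma_pos_of_pos (show (0 : ℝ) < (m : ℝ) / 2 + 1 by positivity)).ne'
  have h2 := (Real.Gamma_pos_of_pos (show (0 : ℝ) < ((m + 1 : ℕ) : ℝ) / 2 + 1 by positivity)).ne'
  have h3 := (Real.sqrt_pos.2 Real.pi_pos).ne'
  field_simp

theorem liftRatio_props (hφ : IsProfile m φ) :
    Continuous (liftRatio m φ) ∧ (∀ y, liftRatio m φ (-y) = liftRatio m φ y) ∧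
      (∀ y, 1 ≤ liftRatio m φ y) ∧
      ∃ C, ∀ y, |Real.log (liftRatio m φ y)| ≤ C * (1 + y ^ 2) := by
  have hmem : ∀ y q : ℝ, 0 < q → ray y q ∈ Ioo (-1 : ℝ) 1 := fun y q hq => by
    have hs : 0 < √(q ^ 2 + y ^ 2) := Real.sqrt_pos.2 (by positivity)
    rw [mem_Ioo, ← abs_lt, ray, abs_div, abs_of_pos hs, div_lt_one hs]
    exact Real.lt_sqrt_of_sq_lt (by rw [sq_abs]; nlinarith)
  have hφ1 : 1 ≤ φ 0 := by simpa using hφ.above 0 (by simp)
  set E : ℝ → ℝ := fun q => Real.exp (-q ^ 2 / (2 * 1)) / chiConst (m + 1) 1 with hE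
  have hE0 : ∀ q, 0 ≤ E q := fun q => div_nonneg (Real.exp_nonneg _) (chiConst_pos _ one_pos).le
  have hw1 : ∀ y q, 0 < q → chi (m + 1) 1 q ≤ fibreWeight m φ y q := fun y q hq =>
    le_mul_of_one_le_right (chi_pos (m + 1) one_pos hq).le (ballRatio_ge_one hφ (hmem y q hq))
  have hwle : ∀ y q, 0 < q → fibreWeight m φ y q ≤ φ 0 ^ m * (q * (q + |y|) ^ m * E q) := by
    intro y q hq
    have hs : √(1 - ray y q ^ 2) = q / √(q ^ 2 + y ^ 2) := by
      have h : 1 - ray y q ^ 2 = (q / √(q ^ 2 + y ^ 2)) ^ 2 := by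
        rw [ray, div_pow, div_pow, Real.sq_sqrt (by positivity : (0 : ℝ) ≤ q ^ 2 + y ^ 2)]
        field_simp
        ring
      rw [h, Real.sqrt_sq (by positivity)]
    have hS : √(q ^ 2 + y ^ 2) ≤ q + |y| :=
      Real.sqrt_le_iff.2 ⟨by positivity, by rw [← sq_abs y]; nlinarith [mul_nonneg hq.le (abs_nonneg y)]⟩
    have hb : ballRatio m φ (ray y q) ≤ (φ 0 * (q + |y|) / q) ^ m := by
      rw [ballRatio, hs, div_div_eq_mul_div]
      refine pow_le_pow_left₀ (div_nonneg (mul_nonneg (profile_pos hφ (hmem y q hq)).le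
        (Real.sqrt_nonneg _)) hq.le) (div_le_div_of_nonneg_right (mul_le_mul
        (profile_le_top hφ (Ioo_subset_Icc_self (hmem y q hq))) hS (Real.sqrt_nonneg _)
        (by linarith)) hq.le) m
    refine (mul_le_mul_of_nonneg_left hb (chi_pos (m + 1) one_pos hq).le).trans (le_of_eq ?_)
    simp only [chi, hE, div_pow, mul_pow]
    field_simp
    ring
  have hmeas : ∀ y, AEStronglyMeasurable (fibreWeight m φ y) (volume.restrict (Ioi 0)) := fun y => by
    refine ContinuousOn.aestronglyMeasurable ?_ measurableSet_Ioi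
    have hc : ContinuousOn (ray y) (Ioi 0) := continuousOn_const.div (by fun_prop)
      fun q (hq : 0 < q) => (Real.sqrt_pos.2 (by positivity)).ne'
    refine (continuous_chi _ _).continuousOn.mul ((((profile_continuousOn hφ).comp hc
      fun q hq => hmem y q hq).div (Real.continuous_sqrt.comp_continuousOn
        (continuousOn_const.sub (hc.pow 2))) fun q hq => ?_).pow m)
    simp only [Pi.sub_apply, Pi.pow_apply, Function.comp_apply]
    exact (Real.sqrt_pos.2 (by nlinarith [(hmem y q hq).1, (hmem y q hq).2])).ne'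
  set D : ℝ → ℝ → ℝ := fun Y q => φ 0 ^ m * (2 ^ m / chiConst (m + 1) 1 *
    (q ^ (m + 1) * Real.exp (-q ^ 2 / (2 * 1)) + Y ^ m * (q ^ 1 * Real.exp (-q ^ 2 / (2 * 1)))))
    with hD
  have hDi : ∀ Y, IntegrableOn (D Y) (Ioi 0) := fun Y =>
    (((integrableOn_pow_mul_exp (m + 1) one_pos).add
      ((integrableOn_pow_mul_exp 1 one_pos).const_mul (Y ^ m))).const_mul _).const_mul _
  have hwD : ∀ Y y q, 0 < q → |y| ≤ Y → fibreWeight m φ y q ≤ D Y q := by
    intro Y y q hq hy
    have hY : 0 ≤ Y := (abs_nonneg y).trans hy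
    refine (hwle y q hq).trans (mul_le_mul_of_nonneg_left ?_ (by positivity))
    have h2 : (q + |y|) ^ m ≤ 2 ^ m * (q ^ m + Y ^ m) := by
      refine (pow_le_pow_left₀ (by positivity) (add_le_add le_rfl hy) m).trans
        ((add_pow_le hq.le hY m).trans ?_)
      exact mul_le_mul_of_nonneg_right (pow_le_pow_right₀ (by norm_num) (Nat.sub_le m 1))
        (by positivity)
    calc q * (q + |y|) ^ m * E q ≤ q * (2 ^ m * (q ^ m + Y ^ m)) * E q :=
          mul_le_mul_of_nonneg_right (mul_le_mul_of_nonneg_left h2 hq.le) (hE0 q)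
      _ = _ := by simp only [hE]; ring
  have hint : ∀ y, IntegrableOn (fibreWeight m φ y) (Ioi 0) := fun y => by
    refine (hDi |y|).mono' (hmeas y) ?_
    filter_upwards [ae_restrict_mem measurableSet_Ioi] with q hq
    rw [Real.norm_of_nonneg ((chi_pos _ one_pos hq).le.trans (hw1 y q hq))]
    exact hwD |y| y q hq le_rfl
  have h1 : ∀ y, 1 ≤ liftRatio m φ y := fun y => by
    rw [liftRatio, ← integral_chi (m + 1) (one_pos : (0 : ℝ) < 1)]
    exact setIntegral_mono_on (integrableOn_chi _ one_pos) (hint y) measurableSet_Ioi (hw1 y)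
  refine ⟨continuous_iff_continuousAt.2 fun y₀ => ?_, fun y => ?_, h1, ?_⟩
  · refine continuousAt_of_dominated (Eventually.of_forall hmeas) ?_ (hDi (|y₀| + 1)) ?_
    · filter_upwards [Metric.closedBall_mem_nhds y₀ one_pos] with y hy
      filter_upwards [ae_restrict_mem measurableSet_Ioi] with q hq
      rw [Real.norm_of_nonneg ((chi_pos _ one_pos hq).le.trans (hw1 y q hq))]
      rw [Metric.mem_closedBall, Real.dist_eq] at hy
      exact hwD _ y q hq (by linarith [abs_sub_abs_le_abs_sub y y₀])
    · filter_upwards [ae_restrict_mem measurableSet_Ioi] with q (hq : 0 < q)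
      have hc : Continuous fun y => ray y q :=
        continuous_id.div (by fun_prop) fun y => (Real.sqrt_pos.2 (by positivity)).ne'
      refine continuousAt_const.mul (ContinuousAt.pow (ContinuousAt.div ?_ (by fun_prop) ?_) m)
      · exact ContinuousAt.comp ((profile_continuousOn hφ).continuousAt
          (isOpen_Ioo.mem_nhds (hmem y₀ q hq))) hc.continuousAt
      · exact (Real.sqrt_pos.2 (by nlinarith [(hmem y₀ q hq).1, (hmem y₀ q hq).2])).ne'
  · refine setIntegral_congr_fun measurableSet_Ioi fun q _ => ?_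
    simp only [fibreWeight, ballRatio, ray, neg_sq, neg_div, hφ.even]
  · set A := φ 0 ^ m * (2 ^ m / chiConst (m + 1) 1) with hA
    set P := ∫ q in Ioi (0 : ℝ), q ^ (m + 1) * Real.exp (-q ^ 2 / (2 * 1)) with hP
    set Q := ∫ q in Ioi (0 : ℝ), q ^ 1 * Real.exp (-q ^ 2 / (2 * 1)) with hQ
    have hP0 : 0 < P := chiConst_pos (m + 1) one_pos
    have hQ0 : 0 < Q := chiConst_pos 1 one_pos
    have hA0 : 0 < A := by
      have := chiConst_pos (m + 1) (one_pos : (0 : ℝ) < 1)
      positivity
    refine ⟨A * (P + Q) + m, fun y => ?_⟩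
    have hup : liftRatio m φ y ≤ A * (P + Q) * (1 + |y|) ^ m := by
      refine (setIntegral_mono_on (hint y) (hDi |y|) measurableSet_Ioi
        fun q hq => hwD |y| y q hq le_rfl).trans ?_
      simp only [hD, ← mul_assoc (φ 0 ^ m), ← hA]
      rw [integral_const_mul, integral_add (integrableOn_pow_mul_exp _ one_pos)
        ((integrableOn_pow_mul_exp 1 one_pos).const_mul _), integral_const_mul, ← hP, ← hQ,
        mul_assoc A]
      refine mul_le_mul_of_nonneg_left ?_ hA0.le
      have e1 : (1 : ℝ) ≤ (1 + |y|) ^ m := one_le_pow₀ (by linarith [abs_nonneg y])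
      have e2 : |y| ^ m ≤ (1 + |y|) ^ m := pow_le_pow_left₀ (abs_nonneg y) (by linarith) m
      rw [add_mul]
      linarith [mul_le_mul_of_nonneg_left e1 hP0.le, mul_le_mul_of_nonneg_left e2 hQ0.le]
    have hy0 : 0 < 1 + |y| := by positivity
    rw [abs_of_nonneg (Real.log_nonneg (h1 y))]
    refine (Real.log_le_log (zero_lt_one.trans_le (h1 y)) hup).trans ?_
    rw [Real.log_mul (by positivity) (by positivity), Real.log_pow]
    have e3 : Real.log (A * (P + Q)) ≤ A * (P + Q) :=
      (Real.log_le_sub_one_of_pos (by positivity)).trans (by linarith)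
    have e4 : Real.log (1 + |y|) ≤ 1 + y ^ 2 := by
      nlinarith [Real.log_le_sub_one_of_pos hy0, sq_nonneg (|y| - 1), sq_abs y]
    have e5 : A * (P + Q) ≤ A * (P + Q) * (1 + y ^ 2) :=
      le_mul_of_one_le_right (by positivity) (by nlinarith)
    rw [add_mul]
    linarith [mul_le_mul_of_nonneg_left e4 (Nat.cast_nonneg (α := ℝ) m)]

private lemma integral_symm {f : ℝ → ℝ} (hev : ∀ t, f (-t) = f t)
    (hf : IntegrableOn f (Ioo 0 1)) :
    (∫ t, if |t| ≤ 1 then f t else 0) = 2 * ∫ t in Ioo (0 : ℝ) 1, f t := by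
  have h := integral_comp_abs (f := fun t => if t ≤ 1 then f t else 0)
  have e : ∀ t : ℝ, (if |t| ≤ 1 then f t else 0) = if |t| ≤ 1 then f |t| else 0 := fun t => by
    rcases abs_choice t with ht | ht <;> simp [ht, hev]
  simp only [e, h]
  congr 1
  rw [← integral_indicator measurableSet_Ioi, ← integral_indicator measurableSet_Ioo]
  refine integral_congr_ae ?_
  filter_upwards [(Set.finite_singleton (1 : ℝ)).countable.ae_notMem volume] with t ht
  have ht1 : t ≠ 1 := ht
  by_cases h0 : t ∈ Ioi (0 : ℝ)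
  · by_cases h1 : t < 1
    · rw [indicator_of_mem h0, indicator_of_mem (show t ∈ Ioo (0 : ℝ) 1 from ⟨h0, h1⟩),
        if_pos h1.le]
    · rw [indicator_of_mem h0, indicator_of_notMem (fun hm => h1 hm.2),
        if_neg (fun hle => ht1 (le_antisymm hle (not_lt.1 h1)))]
  · rw [indicator_of_notMem h0, indicator_of_notMem (fun hm => h0 hm.1)]

/-- Averaged over the John contacts, the relative entropy of the profile less its loss is bounded
by half the excess second moment. -/
theorem entropy_loss_datum {N : ℕ} {K : Set (EuclideanSpace ℝ (Fin (m + 1)))} {c : Fin N → ℝ}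
    {u : Fin N → EuclideanSpace ℝ (Fin (m + 1))} (h : InJohn K c u) (φ : Fin N → ℝ → ℝ)
    (hφ : ∀ i, IsProfile m (φ i))
    (hs : ∀ i t, sect K (u i) t = if |t| ≤ 1 then kappa m * φ i t ^ m else 0) :
    ∑ i, c i * (2 * kappa m / (volume K).toReal *
        ((∫ t in Ioo (0 : ℝ) 1, φ i t ^ m * Real.log (ballRatio m (φ i) t)) -
          ∫ t in Ioo (0 : ℝ) 1, φ i t ^ m * ((m + 1) * lossFun (lossVar m (φ i) t)))) ≤
      (((m : ℝ) + 3) / (volume K).toReal * (∫ x in K, ‖x‖ ^ 2) - ((m : ℝ) + 1)) / 2 +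
        m * Real.log ((volume K).toReal / kappa (m + 1)) := by
  set V := (volume K).toReal with hV
  have hV0 : 0 < V := ENNReal.toReal_pos
    ((Measure.measure_pos_of_nonempty_interior volume h.1.2.2).ne') h.1.2.1.measure_lt_top.ne
  have hk0 := kappa_pos m
  have hk1 := kappa_pos (m + 1)
  set v := V / kappa (m + 1) with hv
  have hv0 : 0 < v := div_pos hV0 hk1
  have hP := fun i => liftRatio_props (hφ i)
  choose hcont hev h1 C hC using hP
  have hpow : ∀ i, IntegrableOn (fun t => φ i t ^ m) (Ioo 0 1) := fun i => by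
    refine IntegrableOn.of_bound (by simp) ((((profile_continuousOn (hφ i)).mono
      (Ioo_subset_Ioo_left (by norm_num))).pow m).aestronglyMeasurable measurableSet_Ioo)
      (φ i 0 ^ m) ?_
    filter_upwards [ae_restrict_mem measurableSet_Ioo] with t ht
    have ht' : t ∈ Ioo (-1 : ℝ) 1 := ⟨by linarith [ht.1], ht.2⟩
    rw [Real.norm_eq_abs, abs_pow, abs_of_pos (profile_pos (hφ i) ht')]
    exact pow_le_pow_left₀ (profile_pos (hφ i) ht').le
      (profile_le_top (hφ i) (Ioo_subset_Icc_self ht')) m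
  have hVe : ∀ i, V = 2 * kappa m * ∫ t in Ioo (0 : ℝ) 1, φ i t ^ m := fun i => by
    have h2 := integral_sect_mul h.1 (h.2.2.2.2.1 i) (g := fun _ => (1 : ℝ)) continuous_const
    simp only [one_mul, hs, setIntegral_const, measureReal_def, smul_eq_mul, mul_one] at h2
    rw [integral_symm (fun t => by rw [(hφ i).even]) ((hpow i).const_mul _), integral_const_mul,
      ← hV] at h2
    linarith
  set g : Fin N → ℝ → ℝ := fun i y => Real.log (liftRatio m (φ i) y) with hg
  have hgc : ∀ i, Continuous (g i) := fun i =>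
    (hcont i).log fun y => (zero_lt_one.trans_le (h1 i y)).ne'
  have hge : ∀ i y, g i (-y) = g i y := fun i y => by simp only [hg, hev]
  set q : Fin N → ℝ → ℝ := fun i y => g i y - Real.log v with hq
  have hnorm : ∀ i, ∫ y, Real.exp (q i y) * gaussianPDFReal 0 1 y = 1 := by
    intro i
    have e : ∀ y : ℝ, Real.exp (q i y) * gaussianPDFReal 0 1 y =
        gauss |y| * liftRatio m (φ i) |y| / v := by
      intro y
      have hy : liftRatio m (φ i) |y| = liftRatio m (φ i) y := by
        rcases abs_choice y with ht | ht <;> simp [ht, hev]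
      simp only [hq, hg, Real.exp_sub, Real.exp_log (zero_lt_one.trans_le (h1 i y)),
        Real.exp_log hv0, gauss, sq_abs, hy, gaussianPDFReal_def, NNReal.coe_one, mul_one, sub_zero]
      field_simp
    simp only [e]
    rw [integral_comp_abs (f := fun y => gauss y * liftRatio m (φ i) y / v), integral_div,
      (lift_entropy_le (hφ i)).2.2.2.2.1, liftConst_eq, hv, hVe i]
    field_simp
    have := (hVe i).symm ▸ hV0.ne'
    exact div_self (right_ne_zero_of_mul this)
  have hdat := entropy_datum h q (fun i => (hgc i).sub continuous_const)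
    (fun i => ⟨C i + |Real.log v|, fun y => by
      refine (abs_sub _ _).trans ?_
      rw [add_mul]
      refine add_le_add (hC i y) (le_mul_of_one_le_right (abs_nonneg _) (by nlinarith))⟩) hnorm
  have hterm : ∀ i, 2 * kappa m / V *
        ((∫ t in Ioo (0 : ℝ) 1, φ i t ^ m * Real.log (ballRatio m (φ i) t)) -
          ∫ t in Ioo (0 : ℝ) 1, φ i t ^ m * ((m + 1) * lossFun (lossVar m (φ i) t))) -
        Real.log v ≤
      (∫ t, (∫ s in Ioi (0 : ℝ), lift (m + 1) s * q i (s * t)) * sect K (u i) t) / V := by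
    intro i
    set G : ℝ → ℝ := fun t => ∫ s in Ioi (0 : ℝ), chi (m + 2) 1 s * g i (s * t) with hG
    have elift : ∀ s, lift (m + 1) s = chi (m + 2) 1 s := fun s => by
      simp only [lift, chi, chiConst, mul_one]
    have hchi : ∀ t, IntegrableOn (fun s => chi (m + 2) 1 s * g i (s * t)) (Ioi 0) := fun t =>
      IntegrableOn.congr_fun ((integrableOn_chi_test (m + 2) (hgc i) (hC i) t).div_const
        (chiConst (m + 2) 1)) (fun s _ => by simp only [chi]; ring) measurableSet_Ioi
    have hQ : ∀ t, (∫ s in Ioi (0 : ℝ), lift (m + 1) s * q i (s * t)) = G t - Real.log v := by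
      intro t
      simp only [elift, hq, mul_sub, hG]
      rw [integral_sub (hchi t) ((integrableOn_chi _ one_pos).mul_const _), integral_mul_const,
        integral_chi _ one_pos, one_mul]
    have hGc : Continuous G := by
      have h := continuous_lift_integral (m + 1) (hgc i) (hC i)
      simp only [elift] at h
      exact h
    have hGe : ∀ t, G (-t) = G t := fun t => by simp only [hG, mul_neg, hge]
    have hGi : IntegrableOn (fun t => φ i t ^ m * G t) (Ioo 0 1) := by
      obtain ⟨B, hB⟩ := (isCompact_Icc (a := (0 : ℝ)) (b := 1)).exists_bound_of_continuousOn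
        hGc.continuousOn
      refine (hpow i).mul_bdd hGc.aestronglyMeasurable (c := B) ?_
      filter_upwards [ae_restrict_mem measurableSet_Ioo] with t ht
      exact hB t (Ioo_subset_Icc_self ht)
    have hint : IntegrableOn (fun t => kappa m * (φ i t ^ m * G t - Real.log v * φ i t ^ m))
        (Ioo 0 1) := (hGi.sub ((hpow i).const_mul _)).const_mul _
    have eI : (∫ t, (∫ s in Ioi (0 : ℝ), lift (m + 1) s * q i (s * t)) * sect K (u i) t) =
        2 * kappa m * (∫ t in Ioo (0 : ℝ) 1, φ i t ^ m * G t) - Real.log v * V := by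
      have e : ∀ t, (∫ s in Ioi (0 : ℝ), lift (m + 1) s * q i (s * t)) * sect K (u i) t =
          if |t| ≤ 1 then kappa m * (φ i t ^ m * G t - Real.log v * φ i t ^ m) else 0 := fun t => by
        rw [hQ, hs]; split_ifs <;> ring
      simp only [e]
      rw [integral_symm (fun t => by rw [(hφ i).even, hGe]) hint, integral_const_mul,
        integral_sub hGi ((hpow i).const_mul _), integral_const_mul, hVe i]
      ring
    obtain ⟨-, -, -, -, -, hle⟩ := lift_entropy_le (hφ i)
    have hsub : Ioo (0 : ℝ) 1 ⊆ Ioo (-1) 1 := Ioo_subset_Ioo_left (by norm_num)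
    have hr : ∀ t ∈ Ioo (0 : ℝ) 1, ballRatio m (φ i) t * √(1 - t ^ 2) ^ m = φ i t ^ m :=
      fun t ht => by
      rw [ballRatio, ← mul_pow, div_mul_cancel₀]
      exact (Real.sqrt_pos.2 (by nlinarith [ht.1, ht.2])).ne'
    have hrm : Measurable ((Ioo (0 : ℝ) 1).indicator (ballRatio m (φ i))) := by
      classical
      rw [← Set.piecewise_eq_indicator]
      refine ContinuousOn.measurable_piecewise ?_ continuousOn_const measurableSet_Ioo
      exact (((profile_continuousOn (hφ i)).mono hsub).div (Continuous.continuousOn (by fun_prop))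
        fun t ht => (Real.sqrt_pos.2 (by nlinarith [ht.1, ht.2])).ne').pow m
    have hl := (lift_integral_test (m := m) hrm (hgc i) (hC i)
      ((hpow i).congr_fun (fun t ht => (hr t ht).symm) measurableSet_Ioo)).2
    have e1 : ∀ y ∈ Ioi (0 : ℝ), g i y * (∫ q in Ioi (0 : ℝ), gauss y * chi (m + 1) 1 q *
        ballRatio m (φ i) (ray y q)) =
        gauss y * (liftRatio m (φ i) y * Real.log (liftRatio m (φ i) y)) := fun y _ => by
      simp only [mul_assoc (gauss y), integral_const_mul, hg, liftRatio, fibreWeight]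
      ring
    have e2 : ∀ t ∈ Ioo (0 : ℝ) 1, ballRatio m (φ i) t * √(1 - t ^ 2) ^ m *
        (∫ s in Ioi (0 : ℝ), chi (m + 2) 1 s * g i (s * t)) = φ i t ^ m * G t := fun t ht => by
      rw [hr t ht]
    rw [setIntegral_congr_fun measurableSet_Ioi e1, setIntegral_congr_fun measurableSet_Ioo e2]
      at hl
    rw [hl, liftConst_eq] at hle
    rw [eI, sub_div, mul_div_cancel_right₀ _ hV0.ne', div_mul_eq_mul_div]
    refine sub_le_sub_right (div_le_div_of_nonneg_right ?_ hV0.le) _
    have h4 := mul_le_mul_of_nonneg_left hle hk1.le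
    simp only [mul_add (kappa (m + 1)), ← mul_assoc (kappa (m + 1)), mul_div_cancel₀ _ hk1.ne'] at h4
    linarith
  have hsum := (Finset.sum_le_sum fun i _ =>
    mul_le_mul_of_nonneg_left (hterm i) (h.2.2.2.1 i)).trans hdat
  simp only [mul_sub (c _) _ (Real.log v), Finset.sum_sub_distrib, ← Finset.sum_mul,
    h.2.2.2.2.2.1] at hsum
  rw [← hv] at hsum
  push_cast at hsum
  rw [show (m : ℝ) + 1 + 2 = m + 3 by ring, ← hV] at hsum
  linarith

end Vale.Agent.P237.Loss
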